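import Crest.Agent.N334.AC.M6.Xi
import Crest.Agent.N334.AC.L.Defs

/-!
# Row 334, S0520 (helper73): block M6 / LB / UB, DEFINITIONS
-/

set_option autoImplicit false

open Matrix Finset

namespace Crest.Agent.N334.AC.M6

variable {d M : ℕ} [NeZero M]

/-- lower form bound: the port energy dominates the free energy of some extension -/
def LB (E0 : (Tor d M → ℝ) → ℝ) (A : Matrix (Tor d M) (Tor d M) ℂ) (w : Tor d M → ℂ) (ε : ℝ) : Prop :=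
  ∀ f, Van f → ∃ ψ, Van ψ ∧ (∀ a, gam w a ≠ 0 → ψ a = f a) ∧ (1 - ε) * E0 ψ ≤ En (Km A w) f

/-- upper form bound -/
def UB (E0 : (Tor d M → ℝ) → ℝ) (A : Matrix (Tor d M) (Tor d M) ℂ) (w : Tor d M → ℂ) (ε : ℝ) : Prop :=
  ∀ ψ, Van ψ → En (Km A w) ψ ≤ (1 + ε) * E0 ψ

/-- capacity bound for charges on `S` -/
def Cap (E0 : (Tor d M → ℝ) → ℝ) (μ : ℝ) (S : Finset (Tor d M)) (a F : ℝ) : Prop :=
  ∀ l ψ : Tor d M → ℝ, (∀ x, x ∉ S → l x = 0) → Van ψ →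
    μ * (∑ x, l x * ψ x) ^ 2 ≤ (a * ∑ x, l x ^ 2 + F * (∑ x, |l x|) ^ 2) * E0 ψ

/-- the block on which the monitor at `p` is normalised -/
def Qp (L : ℕ) (p : Tor d M) : Finset (Tor d M) := tball p (3 * L) \ absb d M

/-- normalising coordinates -/
structure Nrm {B : Type} [Fintype B] (E0 : (Tor d M → ℝ) → ℝ) (Q : Finset (Tor d M))
    (n : Matrix (Tor d M) B ℝ) : Prop where
  le : ∀ z : B → ℝ, Supp (n *ᵥ z) Q ∧ E0 (n *ᵥ z) ≤ ∑ u, z u ^ 2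
  ge : ∀ φ : Tor d M → ℝ, Supp φ Q → ∃ z : B → ℝ, n *ᵥ z = φ ∧ ∑ u, z u ^ 2 ≤ E0 φ

/-- record of the form increments of a closing phase: `Xs y` is the form created by closing `y` -/
abbrev Rec (d M : ℕ) := Tor d M → Matrix (Tor d M) (Tor d M) ℝ

/-- normalised and scaled form -/
noncomputable def nrmM {B : Type} [Fintype B] (n : Matrix (Tor d M) B ℝ) (s : ℝ)
    (X : Matrix (Tor d M) (Tor d M) ℝ) : Matrix B B ℂ := (s • (nᵀ * X * n)).map Complex.ofReal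

/-- the monitored matrix M6 at `p` -/
noncomputable def mon {B : Type} [Fintype B] (n : Matrix (Tor d M) B ℝ) (s : ℝ) (L : ℕ) (Xs : Rec d M)
    (p : Tor d M) : Matrix B B ℂ := nrmM n s (∑ y ∈ tball p L, Xs y)

/-- the record after closing `y` at the value `v` -/
noncomputable def addX (A : Matrix (Tor d M) (Tor d M) ℂ) (w : Tor d M → ℂ) (Xs : Rec d M) (y : Tor d M)
    (v : ℝ) : Rec d M := fun z => Xs z + if z = y then XM A w y (tau A w y v) else 0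

/-- the record after a lazy step; `vv y k` = value of the potential at `y` for the digit `k` -/
noncomputable def stepX (A : Matrix (Tor d M) (Tor d M) ℂ) (w : Tor d M → ℂ) (vv : Tor d M → ℕ → ℝ)
    (Xs : Rec d M) : Option (Tor d M × ℕ) → Rec d M
  | none => Xs
  | some (y, k) => addX A w Xs y (vv y k)

/-- a shift invariant form localised at `y` -/
structure Loc (c θ : ℝ) (y : Tor d M) (X : Matrix (Tor d M) (Tor d M) ℝ) : Prop where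
  symm : X.IsSymm
  const : X *ᵥ (fun _ => (1 : ℝ)) = 0
  le : ∀ f g : Tor d M → ℝ, (f ⬝ᵥ X *ᵥ g) ^ 2 ≤ c ^ 2 *
    ((∑ b, Real.exp (-(2 * θ) * tdist b y) * f b ^ 2) * ∑ b, Real.exp (-(2 * θ) * tdist b y) * g b ^ 2)

/-- invariant of a closing phase that started at `w0` -/
structure Track (A : Matrix (Tor d M) (Tor d M) ℂ) (w0 w : Tor d M → ℂ) (Xs : Rec d M) (c θ : ℝ) :
    Prop where
  ports : ∀ a, gam w a ≠ 0 → gam w0 a ≠ 0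
  zero : ∀ y, gam w y ≠ 0 → Xs y = 0
  supp : ∀ y a b, gam w0 a = 0 → Xs y a b = 0
  loc : ∀ y, Loc c θ y (Xs y)
  ub : ∀ f, En (Km A w) f ≤ En (Km A w0) f + f ⬝ᵥ (∑ y, Xs y) *ᵥ f
  lb : ∀ f, ∃ f' : Tor d M → ℝ, (∀ a, gam w a ≠ 0 → f' a = f a) ∧
    En (Km A w0) f' + f' ⬝ᵥ (∑ y, Xs y) *ᵥ f' ≤ En (Km A w) f

/-- what is known on the row of an active port `y` inside the block `Q`: tame ports `T`
(intensity `≤ h + r b` and `≤ h1`), core ports `Cr` (mass `≤ m`) -/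
structure Row (A : Matrix (Tor d M) (Tor d M) ℂ) (w : Tor d M → ℂ) (y : Tor d M)
    (Q T Cr : Finset (Tor d M)) (r : Tor d M → ℝ) (h h1 m ι0 ι1 κ m1 m2 : ℝ) : Prop where
  cover : ∀ b ∈ Q, b ≠ y → gam w b ≠ 0 → b ∈ T ∨ b ∈ Cr
  ent : ∀ b ∈ Q, b ∈ T → b ≠ y → gam w b * ‖Gm A w b y‖ ^ 2 ≤ h + r b
  ent1 : ∀ b ∈ Q, b ∈ T → b ≠ y → gam w b * ‖Gm A w b y‖ ^ 2 ≤ h1
  core : ∑ b ∈ (Q ∩ Cr).erase y, gam w b * ‖Gm A w b y‖ ^ 2 ≤ m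
  i0 : ι0 ≤ (Gm A w y y).im - gam w y * ‖Gm A w y y‖ ^ 2
  i1 : (Gm A w y y).im ≤ ι1
  kap : ∀ b ∈ Q, b ∈ T → r b ≠ 0 → gam w b * (Gm A w b b).im ≤ κ
  r0 : ∀ b, 0 ≤ r b
  r1 : ∑ b, r b ≤ m1
  r2 : ∑ b, r b ^ 2 ≤ m2
  h0 : 0 ≤ h
  h10 : 0 ≤ h1
  κ0 : 0 ≤ κ
  ι00 : 0 < ι0

/-- leverage constant -/
def lamC (a F a' F' h1 m ι1 : ℝ) : ℝ := 2 * (a * h1 + F * ι1 + (a' + F') * m)

/-- quadratic variation constant -/
noncomputable def qC (a F a' F' h m ι0 ι1 κ m1 m2 : ℝ) : ℝ :=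
  a * (3 * h + 8 * m2 / ι0 + 8 * m1 * κ) + F * ι1 + (a' + F') * m

/-- data of a release, seen by the forms: clusters `B c` with neighbourhoods `N c ⊆ tball c L` -/
structure RelH (A : Matrix (Tor d M) (Tor d M) ℂ) (w w' : Tor d M → ℂ) (Cs : Finset (Tor d M))
    (B N : Tor d M → Finset (Tor d M)) (S : Finset (Tor d M)) (L : ℕ) (e1 n1 tl θ ov : ℝ) : Prop where
  adm : Adm A w
  adm' : Adm A w'
  same : ∀ a, a ∉ Cs.biUnion B → gam w' a = gam w a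
  closed : ∀ a ∈ Cs.biUnion B, gam w' a = 0
  port : ∀ a ∈ Cs.biUnion B, gam w a ≠ 0
  core : ∀ a ∈ Cs.biUnion B, a ∉ absb d M
  sub : ∀ c ∈ Cs, B c ⊆ N c
  ball : ∀ c ∈ Cs, N c ⊆ tball c L
  disj : ∀ c ∈ Cs, ∀ c' ∈ Cs, c ≠ c' → Disjoint (N c) (N c')
  ovl : ∀ p, ((Cs.filter fun c => p ∈ tball c L).card : ℝ) ≤ ov
  row : ∀ c ∈ Cs, ∀ a ∈ N c, a ∉ B c → a ∉ absb d M → gam w a ≠ 0 → a ∈ S ∧
    ∑ b ∈ univ \ Cs.biUnion B, ‖Km A w' a b - Km A w a b‖ ^ 2 ≤ e1 ∧ ∑ b ∈ B c, ‖Km A w a b‖ ^ 2 ≤ e1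
  mass : ∀ c ∈ Cs, ∑ a ∈ N c \ B c, ∑ b ∈ univ \ Cs.biUnion B, ‖Km A w' a b - Km A w a b‖ ^ 2 ≤ n1
  card : ∀ c ∈ Cs, ((B c).card : ℝ) ≤ n1
  far : ∀ a b, a ∉ Cs.biUnion B → b ∉ Cs.biUnion B → (¬ ∃ c ∈ Cs, a ∈ N c ∧ b ∈ N c) →
    ‖Km A w' a b - Km A w a b‖ ^ 2 ≤ tl * Real.exp (-θ * tdist a b)
  far' : ∀ c ∈ Cs, ∀ b ∈ B c, ∀ a, a ∉ N c → ‖Km A w a b‖ ^ 2 ≤ tl * Real.exp (-θ * tdist a b)
  e0 : 0 ≤ e1
  tl0 : 0 ≤ tl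

end Crest.Agent.N334.AC.M6
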