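import Crest.Agent.N334.AC.M6.Mon

/-!
# Row 334, S0520 (helper73): from the monitors M6 to the form bounds
-/

set_option autoImplicit false

open Matrix Finset
open scoped Matrix.Norms.L2Operator

namespace Crest.Agent.N334.AC.M6

variable {d M : ℕ} [NeZero M] {E0 : (Tor d M → ℝ) → ℝ} {A : Matrix (Tor d M) (Tor d M) ℂ}
  {w0 w : Tor d M → ℂ} {Xs : Rec d M} {c θ : ℝ}

namespace Gl

section Gen

variable {ι : Type} [Fintype ι]

theorem form_congr {X : Matrix ι ι ℝ} {f f' : ι → ℝ}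
    (h : ∀ a b, X a b ≠ 0 → f a = f' a ∧ f b = f' b) : f ⬝ᵥ X *ᵥ f = f' ⬝ᵥ X *ᵥ f' := by
  simp only [dotProduct, mulVec, mul_sum]
  refine sum_congr rfl fun a _ => sum_congr rfl fun b _ => ?_
  by_cases h0 : X a b = 0
  · simp [h0]
  · rw [(h a b h0).1, (h a b h0).2]

variable [DecidableEq ι]

theorem form_shift {X : Matrix ι ι ℝ} (hs : X.IsSymm) (hc : X *ᵥ (fun _ => (1 : ℝ)) = 0)
    (f : ι → ℝ) (k : ℝ) : (fun a => f a - k) ⬝ᵥ X *ᵥ (fun a => f a - k) = f ⬝ᵥ X *ᵥ f := by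
  have e1 : (fun a => f a - k) = f - k • fun _ => (1 : ℝ) := by funext a; simp
  have e2 : X *ᵥ (k • fun _ => (1 : ℝ)) = 0 := by rw [mulVec_smul, hc, smul_zero]
  rw [e1, mulVec_sub, e2, sub_zero, sub_dotProduct, form_comm hs (k • fun _ => (1 : ℝ)), e2,
    dotProduct_zero, sub_zero]

theorem form_diff {X : Matrix ι ι ℝ} (hs : X.IsSymm) (f g : ι → ℝ) :
    f ⬝ᵥ X *ᵥ f - g ⬝ᵥ X *ᵥ g = (f - g) ⬝ᵥ X *ᵥ (f + g) := by
  rw [mulVec_add, sub_dotProduct, dotProduct_add, dotProduct_add, form_comm hs g f]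
  ring

theorem form_le {Y : Matrix ι ι ℝ} {b : ℝ} (h : ‖Y.map Complex.ofReal‖ ≤ b) (z : ι → ℝ) :
    |z ⬝ᵥ Y *ᵥ z| ≤ b * ∑ u, z u ^ 2 := by
  have hb : 0 ≤ b := (norm_nonneg _).trans h
  have h1 := ((bd_iff_norm hb).2 h).dot (fun u => (z u : ℂ)) (fun u => (z u : ℂ))
  have h2 : (fun u => (z u : ℂ)) ⬝ᵥ Y.map Complex.ofReal *ᵥ (fun u => (z u : ℂ)) =
      ((z ⬝ᵥ Y *ᵥ z : ℝ) : ℂ) := by
    simp [dotProduct, mulVec]
  have h3 : nsq (fun u => (z u : ℂ)) = ∑ u, z u ^ 2 := by simp [nsq]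
  rw [h2, h3, Complex.norm_real, Real.norm_eq_abs, sq_abs] at h1
  refine abs_le_of_sq_le_sq ?_ (by positivity)
  calc _ ≤ _ := h1
    _ = _ := by ring

end Gen

theorem sum_addX (y : Tor d M) (v : ℝ) :
    ∑ z, addX A w Xs y v z = ∑ z, Xs z + XM A w y (tau A w y v) := by
  simp [addX, sum_add_distrib]

/-- the local part of the form -/
theorem loc_le {B : Type} [Fintype B] [DecidableEq B] {n : Matrix (Tor d M) B ℝ} {s b : ℝ}
    {Q : Finset (Tor d M)} {D : Matrix (Tor d M) (Tor d M) ℝ} (hn : Nrm E0 Q n) (hs : 0 < s)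
    (hb : ‖nrmM n s D‖ ≤ b) {φ : Tor d M → ℝ} (hφ : Supp φ Q) : |φ ⬝ᵥ D *ᵥ φ| ≤ b / s * E0 φ := by
  obtain ⟨z, rfl, hz⟩ := hn.ge φ hφ
  have hb0 : 0 ≤ b := (norm_nonneg _).trans hb
  have h1 := form_le hb z
  have h2 : z ⬝ᵥ (s • (nᵀ * D * n)) *ᵥ z = s * ((n *ᵥ z) ⬝ᵥ D *ᵥ (n *ᵥ z)) := by
    rw [smul_mulVec, dotProduct_smul, smul_eq_mul, ← mulVec_mulVec, ← mulVec_mulVec,
      dotProduct_mulVec z, vecMul_transpose]
  rw [h2, abs_mul, abs_of_pos hs] at h1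
  rw [div_mul_eq_mul_div, le_div_iff₀ hs, mul_comm]
  exact h1.trans (mul_le_mul_of_nonneg_left hz hb0)

/-- the cut-off error -/
theorem err_le {y : Tor d M} {X : Matrix (Tor d M) (Tor d M) ℝ} (h : Loc c θ y X) (hc : 0 ≤ c)
    (hθ : 0 < θ) {L : ℕ} {χ g : Tor d M → ℝ} (h0 : ∀ x, 0 ≤ χ x) (h1 : ∀ x, χ x ≤ 1)
    (h2 : ∀ x, tdist x y ≤ L → χ x = 1) :
    |g ⬝ᵥ X *ᵥ g - (fun x => χ x * g x) ⬝ᵥ X *ᵥ fun x => χ x * g x| ≤
      2 * c * Real.exp (-θ * L / 2) * ∑ b, Real.exp (-θ * tdist b y) * g b ^ 2 := by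
  rw [form_diff h.symm]
  set S := ∑ b, Real.exp (-θ * tdist b y) * g b ^ 2 with hS
  have hS0 : 0 ≤ S := sum_nonneg fun b _ => by positivity
  have e1 : ∑ b, Real.exp (-(2 * θ) * tdist b y) * (g - fun x => χ x * g x) b ^ 2 ≤
      Real.exp (-θ * L) * S := by
    rw [hS, mul_sum]
    refine sum_le_sum fun b _ => ?_
    simp only [Pi.sub_apply]
    by_cases hb : tdist b y ≤ L
    · rw [h2 b hb, one_mul, sub_self]
      simp only [ne_eq, OfNat.ofNat_ne_zero, not_false_eq_true, zero_pow, mul_zero]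
      positivity
    · have hb' : (L : ℝ) ≤ tdist b y := by exact_mod_cast (not_le.1 hb).le
      rw [← mul_assoc, ← Real.exp_add]
      refine mul_le_mul (Real.exp_le_exp.2 (by nlinarith)) ?_ (sq_nonneg _) (Real.exp_pos _).le
      have e : (g b - χ b * g b) ^ 2 = (1 - χ b) ^ 2 * g b ^ 2 := by ring
      rw [e]
      refine mul_le_of_le_one_left (sq_nonneg _) ?_
      nlinarith [h0 b, h1 b]
  have e2 : ∑ b, Real.exp (-(2 * θ) * tdist b y) * (g + fun x => χ x * g x) b ^ 2 ≤ 4 * S := by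
    rw [hS, mul_sum]
    refine sum_le_sum fun b _ => ?_
    simp only [Pi.add_apply]
    have hb' : (0 : ℝ) ≤ tdist b y := Nat.cast_nonneg _
    rw [mul_left_comm]
    refine mul_le_mul (Real.exp_le_exp.2 (by nlinarith)) ?_ (sq_nonneg _) (Real.exp_pos _).le
    have e : (g b + χ b * g b) ^ 2 = (1 + χ b) ^ 2 * g b ^ 2 := by ring
    rw [e]
    refine mul_le_mul_of_nonneg_right ?_ (sq_nonneg _)
    nlinarith [h0 b, h1 b]
  refine abs_le_of_sq_le_sq ((h.le _ _).trans ?_) (by positivity)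
  have e3 : Real.exp (-θ * L) = Real.exp (-θ * L / 2) ^ 2 := by
    rw [sq, ← Real.exp_add]; congr 1; ring
  calc _ ≤ c ^ 2 * ((Real.exp (-θ * L) * S) * (4 * S)) := by
        refine mul_le_mul_of_nonneg_left (mul_le_mul e1 e2 ?_ (by positivity)) (sq_nonneg _)
        exact sum_nonneg fun b _ => by positivity
    _ = _ := by rw [e3]; ring

theorem sum_ball (F : Tor d M → ℝ) (L : ℕ) :
    ∑ p, ∑ y ∈ tball p L, F y = vol d M L * ∑ y, F y := by
  have e : ∀ p, ∑ y ∈ tball p L, F y = ∑ y, if y ∈ tball p L then F y else 0 := fun p => by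
    rw [sum_ite_mem, univ_inter]
  simp only [e]
  rw [sum_comm, mul_sum]
  refine sum_congr rfl fun y _ => ?_
  rw [← sum_filter, sum_const, nsmul_eq_mul, card_filter_mem_tball]

end Gl

open Gl

theorem Track.init (A : Matrix (Tor d M) (Tor d M) ℂ) (w : Tor d M → ℂ) (c θ : ℝ) :
    Track A w w 0 c θ := by
  refine ⟨fun _ h => h, fun _ _ => rfl, fun _ _ _ _ => rfl, fun y => ⟨isSymm_zero, zero_mulVec _,
    fun f g => ?_⟩, fun f => by simp, fun f => ⟨f, fun _ _ => rfl, by simp⟩⟩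
  simp only [Pi.zero_apply, zero_mulVec, dotProduct_zero, ne_eq, OfNat.ofNat_ne_zero,
    not_false_eq_true, zero_pow]
  positivity

theorem Track.close (h : Track A w0 w Xs c θ) (hA : Adm A w) {y : Tor d M} (hy : gam w y ≠ 0) {v : ℝ}
    (hne : 1 + ((v : ℂ) - w y) * Gm A w y y ≠ 0) {cI : ℝ}
    (hI : ∀ b, b ≠ y → gam w b * ‖Gm A w b y‖ ^ 2 ≤ cI * Real.exp (-(2 * θ) * tdist b y))
    (hcI : 0 ≤ cI) (hc : ‖tau A w y v‖ * cI ≤ c) :
    Track A w0 (Function.update w y v) (addX A w Xs y v) c θ := by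
  have hp : ∀ a, gam (Function.update w y v) a ≠ 0 → a ≠ y ∧ gam w a ≠ 0 := fun a ha => by
    have : a ≠ y := fun e => ha (e ▸ gam_close_self v)
    exact ⟨this, by rwa [gam_close_ne v this] at ha⟩
  refine ⟨fun a ha => h.ports a (hp a ha).2, fun z hz => ?_, fun z a b ha => ?_, fun z => ?_,
    fun f => ?_, fun f => ?_⟩
  · simp [addX, (hp z hz).1, h.zero z (hp z hz).2]
  · have : gam w a = 0 := by
      by_contra h1
      exact h.ports a h1 ha
    simp only [addX, Matrix.add_apply, h.supp z a b ha, zero_add]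
    split_ifs
    · exact XM_apply_zero _ (Or.inr this) b
    · rfl
  · by_cases hz : z = y
    · subst hz
      have e : addX A w Xs z v z = XM A w z (tau A w z v) := by simp [addX, h.zero z hy]
      rw [e]
      refine ⟨XM_isSymm hA _, XM_mulVec_const hA _ 1, fun f g => (XM_sq_le hA _ f g 0 0).trans ?_⟩
      have hst : ∀ f : Tor d M → ℝ, star2 A w z f 0 ≤
          cI * ∑ b, Real.exp (-(2 * θ) * tdist b z) * f b ^ 2 := fun f => by
        rw [star2, mul_sum]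
        refine sum_le_sum fun b _ => ?_
        rw [sub_zero, ← mul_assoc]
        refine mul_le_mul_of_nonneg_right ?_ (sq_nonneg _)
        by_cases hb : b = z
        · rw [hb, Iy_self]; positivity
        · exact (Iy_le hA.diss b).trans (hI b hb)
      have hn : ∀ f : Tor d M → ℝ, 0 ≤ ∑ b, Real.exp (-(2 * θ) * tdist b z) * f b ^ 2 :=
        fun f => sum_nonneg fun b _ => by positivity
      have h2 : (‖tau A w z v‖ * cI) ^ 2 ≤ c ^ 2 := pow_le_pow_left₀ (by positivity) hc 2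
      calc _ ≤ ‖tau A w z v‖ ^ 2 * ((cI * ∑ b, Real.exp (-(2 * θ) * tdist b z) * f b ^ 2) *
            (cI * ∑ b, Real.exp (-(2 * θ) * tdist b z) * g b ^ 2)) :=
            mul_le_mul_of_nonneg_left (mul_le_mul (hst f) (hst g) (star2_nonneg _ _)
              (mul_nonneg hcI (hn f))) (sq_nonneg _)
        _ = (‖tau A w z v‖ * cI) ^ 2 * ((∑ b, Real.exp (-(2 * θ) * tdist b z) * f b ^ 2) *
            ∑ b, Real.exp (-(2 * θ) * tdist b z) * g b ^ 2) := by ring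
        _ ≤ _ := mul_le_mul_of_nonneg_right h2 (mul_nonneg (hn f) (hn g))
    · have e : addX A w Xs y v z = Xs z := by simp [addX, hz]
      rw [e]
      exact h.loc z
  · rw [En_close hA hne, sum_addX, add_mulVec, dotProduct_add]
    have h1 := En_update (y := y) hA f (f y)
    rw [Function.update_eq_self] at h1
    have h2 := En_update (y := y) hA f (vm A w y f)
    have h3 := mul_le_mul_of_nonneg_left (star2_vm_le (A := A) (w := w) (y := y) f (f y)) (hA.diss y)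
    have h4 := h.ub f
    linarith
  · obtain ⟨f', h1, h2⟩ := h.lb (Function.update f y (vm A w y f))
    have h3 : ∀ a, a ≠ y → gam w a ≠ 0 → f' a = f a := fun a ha ha' => by
      rw [h1 a ha', Function.update_of_ne ha]
    refine ⟨f', fun a ha => h3 a (hp a ha).1 (hp a ha).2, ?_⟩
    rw [En_close hA hne, sum_addX, add_mulVec, dotProduct_add]
    have h4 : f' ⬝ᵥ XM A w y (tau A w y v) *ᵥ f' = f ⬝ᵥ XM A w y (tau A w y v) *ᵥ f := by
      refine form_congr fun a b h0 => ⟨?_, ?_⟩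
      · exact h3 a (fun e => h0 (XM_apply_zero _ (Or.inl e) b))
          fun e => h0 (XM_apply_zero _ (Or.inr e) b)
      · exact h3 b (fun e => h0 (XM_apply_zero' _ a (Or.inl e)))
          fun e => h0 (XM_apply_zero' _ a (Or.inr e))
    linarith

/-- error constant of the gluing -/
noncomputable def glueC (d : ℕ) (σ C : ℝ) (L : ℕ) (s b c θ : ℝ) : ℝ :=
  C * b / s + 2 * c * Real.exp (-θ * L / 2) * ((C * L / θ) ^ (d + 3) / σ ^ 2)

theorem glue {B : Type} [Fintype B] [DecidableEq B] {n : Tor d M → Matrix (Tor d M) B ℝ} {σ C s b : ℝ}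
    {L : ℕ} {χ : Tor d M → Tor d M → ℝ} {cp : Tor d M → (Tor d M → ℝ) →ₗ[ℝ] ℝ}
    (hloc : ∀ y, Loc c θ y (Xs y)) (hcut : Cut E0 σ C L χ cp) (hn : ∀ p, Nrm E0 (Qp L p) (n p))
    (hs : 0 < s) (hc : 0 ≤ c) (hθ : 0 < θ) (hθ1 : θ ≤ 1)
    (hb : ∀ p, ‖mon (n p) s L Xs p‖ ≤ b) {ψ : Tor d M → ℝ} (hψ : Van ψ) :
    |ψ ⬝ᵥ (∑ y, Xs y) *ᵥ ψ| ≤ glueC d σ C L s b c θ * E0 ψ := by
  have hv := one_le_vol (d := d) (M := M) L
  have hb0 : 0 ≤ b := (norm_nonneg _).trans (hb 0)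
  have hp : ∀ p, |∑ y ∈ tball p L, ψ ⬝ᵥ Xs y *ᵥ ψ| ≤
      b / s * E0 (fun x => χ p x * (ψ x - cp p ψ)) + 2 * c * Real.exp (-θ * L / 2) *
        ∑ y ∈ tball p L, ∑ b, Real.exp (-θ * tdist b y) * (ψ b - cp p ψ) ^ 2 := by
    intro p
    have hsupp : Supp (fun x => χ p x * (ψ x - cp p ψ)) (Qp L p) := by
      intro a ha
      by_cases h1 : a ∈ tball p (3 * L)
      · have h2 : a ∈ absb d M := by
          by_contra h2
          exact ha (mem_sdiff.2 ⟨h1, h2⟩)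
        show χ p a * (ψ a - cp p ψ) = 0
        rw [hψ a h2, hcut.van p ψ hψ ⟨a, h2, mem_tball.1 h1⟩, sub_self, mul_zero]
      · show χ p a * (ψ a - cp p ψ) = 0
        rw [hcut.zero p a (not_le.1 fun h2 => h1 (mem_tball.2 h2)), zero_mul]
    have h1 := loc_le (hn p) hs (hb p) hsupp
    rw [sum_mulVec, dotProduct_sum] at h1
    have h2 : ∀ y ∈ tball p L, |ψ ⬝ᵥ Xs y *ᵥ ψ -
        (fun x => χ p x * (ψ x - cp p ψ)) ⬝ᵥ Xs y *ᵥ fun x => χ p x * (ψ x - cp p ψ)| ≤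
        2 * c * Real.exp (-θ * L / 2) * ∑ b, Real.exp (-θ * tdist b y) * (ψ b - cp p ψ) ^ 2 := by
      intro y hy
      rw [← form_shift (hloc y).symm (hloc y).const ψ (cp p ψ)]
      refine err_le (hloc y) hc hθ (hcut.nonneg p) (hcut.le_one p) fun x hx => hcut.one p x ?_
      have := tdist_triangle x y p
      have := mem_tball.1 hy
      omega
    have h3 := (abs_sum_le_sum_abs _ _).trans (sum_le_sum h2)
    rw [sum_sub_distrib, ← mul_sum] at h3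
    have h4 := abs_sub_abs_le_abs_sub (∑ y ∈ tball p L, ψ ⬝ᵥ Xs y *ᵥ ψ)
      (∑ y ∈ tball p L, (fun x => χ p x * (ψ x - cp p ψ)) ⬝ᵥ Xs y *ᵥ fun x => χ p x * (ψ x - cp p ψ))
    linarith
  have h1 := (abs_sum_le_sum_abs _ _).trans (sum_le_sum fun p (_ : p ∈ univ) => hp p)
  rw [sum_ball, sum_add_distrib, ← mul_sum, ← mul_sum, abs_mul, abs_of_pos (by linarith)] at h1
  have h2 := mul_le_mul_of_nonneg_left (hcut.ims ψ) (div_nonneg hb0 hs.le)
  have h3 := mul_le_mul_of_nonneg_left (hcut.err θ hθ hθ1 ψ)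
    (by positivity : 0 ≤ 2 * c * Real.exp (-θ * L / 2))
  rw [sum_mulVec, dotProduct_sum]
  refine le_of_mul_le_mul_left ?_ (by linarith : 0 < vol d M L)
  calc _ ≤ _ := h1
    _ ≤ _ := add_le_add h2 h3
    _ = _ := by rw [glueC]; ring

theorem Track.LB (h : Track A w0 w Xs c θ) (habs : ∀ a ∈ absb d M, gam w a ≠ 0) {ε η : ℝ}
    (h0 : LB E0 A w0 ε) (hη : ∀ ψ, Van ψ → |ψ ⬝ᵥ (∑ y, Xs y) *ᵥ ψ| ≤ η * E0 ψ) :
    LB E0 A w (ε + η) := by
  intro f hf
  obtain ⟨f', h1, h2⟩ := h.lb f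
  obtain ⟨ψ, h3, h4, h5⟩ := h0 f' fun a ha => by rw [h1 a (habs a ha), hf a ha]
  refine ⟨ψ, h3, fun a ha => by rw [h4 a (h.ports a ha), h1 a ha], ?_⟩
  have h6 : ψ ⬝ᵥ (∑ y, Xs y) *ᵥ ψ = f' ⬝ᵥ (∑ y, Xs y) *ᵥ f' := by
    refine form_congr fun a b hab => ?_
    rw [Matrix.sum_apply] at hab
    obtain ⟨y, -, hy⟩ := exists_ne_zero_of_sum_ne_zero hab
    refine ⟨h4 a fun e => hy (h.supp y a b e), h4 b fun e => hy ?_⟩
    rw [← (h.loc y).symm.apply a b]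
    exact h.supp y b a e
  have h7 := (abs_le.1 (hη ψ h3)).1
  linarith

theorem Track.UB (h : Track A w0 w Xs c θ) {ε η : ℝ}
    (h0 : UB E0 A w0 ε) (hη : ∀ ψ, Van ψ → |ψ ⬝ᵥ (∑ y, Xs y) *ᵥ ψ| ≤ η * E0 ψ) :
    UB E0 A w (ε + η) := by
  intro ψ hψ
  have h1 := h.ub ψ
  have h2 := h0 ψ hψ
  have h3 := (abs_le.1 (hη ψ hψ)).2
  linarith

end Crest.Agent.N334.AC.M6
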