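import Crest.Agent.N334.AC.M6.Key

/-!
# Row 334, S0520 (helper73): the form bounds through a release
-/

set_option autoImplicit false

open Matrix Finset

namespace Crest.Agent.N334.AC.M6

variable {d M : ℕ} [NeZero M] {E0 : (Tor d M → ℝ) → ℝ} {A : Matrix (Tor d M) (Tor d M) ℂ}
  {w w' : Tor d M → ℂ} {Cs S : Finset (Tor d M)} {B N : Tor d M → Finset (Tor d M)} {L : ℕ}
  {e1 n1 tl θ ov ε μ a F σ C P t : ℝ} {χ : Tor d M → Tor d M → ℝ}
  {cp : Tor d M → (Tor d M → ℝ) →ₗ[ℝ] ℝ}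

/-- error constant of a release; `P` = constant of `poin2` at rate `θ` -/
noncomputable def relC (C μ a F e1 n1 tl ov P : ℝ) : ℝ := 4 * ov * C * (a * e1 + F * n1) / μ + 2 * tl * P

namespace Rl

theorem exists_mean {ι : Type} [Fintype ι] {ω : ι → ℝ} (h0 : ∀ a, 0 ≤ ω a) (f : ι → ℝ) :
    ∃ m, ∀ c, ∑ a, ω a * (f a - m) ^ 2 ≤ ∑ a, ω a * (f a - c) ^ 2 := by
  rcases (sum_nonneg fun a (_ : a ∈ univ) => h0 a).eq_or_lt with h | h
  · have := (sum_eq_zero_iff_of_nonneg fun a _ => h0 a).1 h.symm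
    exact ⟨0, fun c => by simp [this _ (mem_univ _)]⟩
  refine ⟨(∑ a, ω a * f a) / ∑ a, ω a, fun c => ?_⟩
  set m := (∑ a, ω a * f a) / ∑ a, ω a with hm
  have h1 : ∑ a, ω a * (f a - m) = 0 := by
    simp only [mul_sub, sum_sub_distrib, ← sum_mul]
    rw [hm, mul_div_cancel₀ _ h.ne', sub_self]
  have h2 : ∀ a, ω a * (f a - c) ^ 2 = ω a * (f a - m) ^ 2 + ω a * (m - c) ^ 2 +
      2 * (m - c) * (ω a * (f a - m)) := fun a => by ring
  simp only [h2, sum_add_distrib, ← mul_sum, ← sum_mul, h1]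
  nlinarith [mul_nonneg h.le (sq_nonneg (m - c))]

/-- local weight of the cluster `c` -/
noncomputable def om (A : Matrix (Tor d M) (Tor d M) ℂ) (w w' : Tor d M → ℂ) (Cs : Finset (Tor d M))
    (B N : Tor d M → Finset (Tor d M)) (c a : Tor d M) : ℝ :=
  if a ∈ N c \ B c then ∑ b ∈ univ \ Cs.biUnion B, ‖Km A w' a b - Km A w a b‖ ^ 2 +
    ∑ b ∈ B c, ‖Km A w a b‖ ^ 2 else 0

theorem om_nonneg (c a : Tor d M) : 0 ≤ om A w w' Cs B N c a := by
  unfold om; split_ifs <;> positivity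

theorem Km_zero {w : Tor d M → ℂ} {a : Tor d M} (ha : gam w a = 0) (b : Tor d M) :
    Km A w a b = 0 ∧ Km A w b a = 0 := by simp [Km, ha]

theorem not_mem (h : RelH A w w' Cs B N S L e1 n1 tl θ ov) {c a : Tor d M} (hc : c ∈ Cs)
    (ha : a ∈ N c \ B c) : a ∉ Cs.biUnion B := by
  rw [mem_sdiff] at ha
  simp only [mem_biUnion, not_exists, not_and]
  intro c' hc' h'
  by_cases e : c = c'
  · exact ha.2 (e ▸ h')
  · exact disjoint_left.1 (h.disj c hc c' hc' e) ha.1 (h.sub c' hc' h')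

theorem om_ne (h : RelH A w w' Cs B N S L e1 n1 tl θ ov) {c a : Tor d M} (hc : c ∈ Cs)
    (ha : om A w w' Cs B N c a ≠ 0) : a ∈ N c \ B c ∧ gam w a ≠ 0 := by
  by_cases h1 : a ∈ N c \ B c
  · refine ⟨h1, fun e => ha ?_⟩
    have e' : gam w' a = 0 := (h.same a (not_mem h hc h1)).trans e
    simp [om, (Km_zero e _).1, (Km_zero e' _).1]
  · simp only [om, h1, if_false, ne_eq, not_true_eq_false] at ha

theorem sum_om_le (h : RelH A w w' Cs B N S L e1 n1 tl θ ov) {c : Tor d M} (hc : c ∈ Cs) :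
    ∑ a, om A w w' Cs B N c a ≤ 2 * n1 := by
  simp only [om, sum_ite_mem, univ_inter, sum_add_distrib]
  have h1 := h.mass c hc
  have h2 : ∑ a ∈ N c \ B c, ∑ b ∈ B c, ‖Km A w a b‖ ^ 2 ≤ (B c).card := by
    rw [sum_comm, card_eq_sum_ones]
    push_cast
    refine sum_le_sum fun b _ => ?_
    have := nsq_Kbar h.adm (Pi.single b 1)
    rw [nsq_single] at this
    simp only [nsq, Pi.single_apply, mul_ite, mul_one, mul_zero, sum_ite_eq', mem_univ, if_true,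
      RCLike.norm_conj, norm_one, one_pow] at this
    exact (sum_le_sum_of_subset_of_nonneg (subset_univ _) fun _ _ _ => by positivity).trans this
  have := h.card c hc
  linarith

/-- admissible centring constants -/
def Ctr (A : Matrix (Tor d M) (Tor d M) ℂ) (w w' : Tor d M → ℂ) (Cs : Finset (Tor d M))
    (B N : Tor d M → Finset (Tor d M)) (f cc : Tor d M → ℝ) : Prop :=
  ∀ c ∈ Cs, ((∃ x ∈ absb d M, x ∈ N c) ∧ cc c = 0) ∨ ((∀ x ∈ N c, x ∉ absb d M) ∧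
    ∀ x, ∑ a, om A w w' Cs B N c a * (f a - cc c) ^ 2 ≤ ∑ a, om A w w' Cs B N c a * (f a - x) ^ 2)

theorem exists_ctr (f : Tor d M → ℝ) : ∃ cc, Ctr A w w' Cs B N f cc := by
  have : ∀ c, ∃ m : ℝ, ((∃ x ∈ absb d M, x ∈ N c) ∧ m = 0) ∨ ((∀ x ∈ N c, x ∉ absb d M) ∧
      ∀ x, ∑ a, om A w w' Cs B N c a * (f a - m) ^ 2 ≤
        ∑ a, om A w w' Cs B N c a * (f a - x) ^ 2) := fun c => by
    by_cases hx : ∃ x ∈ absb d M, x ∈ N c
    · exact ⟨0, Or.inl ⟨hx, rfl⟩⟩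
    · obtain ⟨m, hm⟩ := exists_mean (om_nonneg (A := A) (w := w) (w' := w') (Cs := Cs) (B := B)
        (N := N) c) f
      exact ⟨m, Or.inr ⟨fun x h1 h2 => hx ⟨x, h2, h1⟩, hm⟩⟩
  choose cc hcc using this
  exact ⟨cc, fun c _ => hcc c⟩

theorem cap_weight (hμ : 0 < μ) (hC : Cap E0 μ S a F) (ha : 0 ≤ a) (hF : 0 ≤ F) (hE : ∀ ψ, 0 ≤ E0 ψ)
    {ω φ : Tor d M → ℝ} (h0 : ∀ x, 0 ≤ ω x) {e n : ℝ} (he0 : 0 ≤ e) (he : ∀ x, ω x ≠ 0 → x ∈ S ∧ ω x ≤ e)
    (hn : ∑ x, ω x ≤ n) (hφ : Van φ) : ∑ x, ω x * φ x ^ 2 ≤ (a * e + F * n) / μ * E0 φ := by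
  have h1 := hC (fun x => ω x * φ x) φ (fun x hx => by
    by_cases e : ω x = 0
    · simp [e]
    · exact absurd (he x e).1 hx) hφ
  set W := ∑ x, ω x * φ x ^ 2 with hW
  have hW0 : 0 ≤ W := sum_nonneg fun x _ => mul_nonneg (h0 x) (sq_nonneg _)
  have hn0 : 0 ≤ n := (sum_nonneg fun x _ => h0 x).trans hn
  have e1 : ∑ x, ω x * φ x * φ x = W := sum_congr rfl fun x _ => by ring
  have h2 : ∑ x, (ω x * φ x) ^ 2 ≤ e * W := by
    rw [hW, mul_sum]
    refine sum_le_sum fun x _ => ?_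
    by_cases e' : ω x = 0
    · simp [e']
    · have := mul_le_mul_of_nonneg_right (he x e').2 (mul_nonneg (h0 x) (sq_nonneg (φ x)))
      nlinarith
  have h3 : (∑ x, |ω x * φ x|) ^ 2 ≤ n * W := by
    refine (sum_sq_le_sum_mul_sum_of_sq_le_mul univ (f := ω) (g := fun x => ω x * φ x ^ 2)
      (fun x _ => h0 x) (fun x _ => mul_nonneg (h0 x) (sq_nonneg _))
      fun x _ => le_of_eq (by rw [sq_abs]; ring)).trans (by gcongr)
  have hE' := hE φ
  have h4 : μ * W ^ 2 ≤ (a * (e * W) + F * (n * W)) * E0 φ := by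
    rw [e1] at h1; exact h1.trans (by gcongr)
  rw [div_mul_eq_mul_div, le_div_iff₀ hμ]
  rcases hW0.eq_or_lt with h5 | h5
  · rw [← h5, zero_mul]; positivity
  · refine le_of_mul_le_mul_right ?_ h5
    nlinarith

theorem cluster (h : RelH A w w' Cs B N S L e1 n1 tl θ ov) (hE : ∀ ψ, 0 ≤ E0 ψ)
    (hcut : Cut E0 σ C L χ cp) (hμ : 0 < μ) (hC : Cap E0 μ S a F) (ha : 0 ≤ a) (hF : 0 ≤ F)
    (hn1 : 0 ≤ n1) {ψ cc : Tor d M → ℝ} (hψ : Van ψ) (hcc : Ctr A w w' Cs B N ψ cc) :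
    ∑ c ∈ Cs, ∑ x, om A w w' Cs B N c x * (ψ x - cc c) ^ 2 ≤
      2 * ov * C * (a * e1 + F * n1) / μ * E0 ψ := by
  set φ : Tor d M → Tor d M → ℝ := fun p x => χ p x * (ψ x - cp p ψ) with hφ
  have hv : ∀ p, Van (φ p) := fun p x hx => by
    by_cases e : tdist x p ≤ 3 * L
    · simp [hφ, hψ x hx, hcut.van p ψ hψ ⟨x, hx, e⟩]
    · simp [hφ, hcut.zero p x (not_le.1 e)]
  have he := h.e0
  set Λ := (a * (2 * e1) + F * (2 * n1)) / μ with hΛ
  have h1 : ∀ c ∈ Cs, ∀ p ∈ tball c L,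
      ∑ x, om A w w' Cs B N c x * (ψ x - cc c) ^ 2 ≤ Λ * E0 (φ p) := by
    intro c hc p hp
    have hd : ∀ x ∈ N c, tdist x p ≤ 2 * L := fun x hx => by
      have h1 := mem_tball.1 (h.ball c hc hx)
      have h2 := mem_tball.1 hp
      have h3 := tdist_triangle x c p
      rw [tdist_comm c p] at h3
      omega
    refine le_trans ?_ (cap_weight hμ hC ha hF hE
      (ω := fun x => if x ∈ absb d M then 0 else om A w w' Cs B N c x)
      (fun x => by split_ifs; exacts [le_rfl, om_nonneg c x]) (by positivity) (fun x hx => ?_)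
      ((sum_le_sum fun x _ => by split_ifs; exacts [om_nonneg c x, le_rfl]).trans (sum_om_le h hc))
      (hv p))
    · have e : ∀ x, om A w w' Cs B N c x * (ψ x - cp p ψ) ^ 2 = om A w w' Cs B N c x * φ p x ^ 2 := by
        intro x
        by_cases e : om A w w' Cs B N c x = 0
        · simp [e]
        · simp [hφ, hcut.one p x (hd x (mem_sdiff.1 (om_ne h hc e).1).1)]
      rcases hcc c hc with ⟨⟨x, hx, hx'⟩, h0⟩ | ⟨h0, h2⟩
      · have h2 := hcut.van p ψ hψ ⟨x, hx, (hd x hx').trans (by omega)⟩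
        refine le_of_eq (sum_congr rfl fun x _ => ?_)
        rw [h0, ← h2, e]
        split_ifs with hx
        · simp [hv p x hx]
        · rfl
      · refine (h2 (cp p ψ)).trans (le_of_eq (sum_congr rfl fun x _ => ?_))
        rw [e]
        split_ifs with hx
        · simp [hv p x hx]
        · rfl
    · by_cases hx' : x ∈ absb d M
      · simp [hx'] at hx
      rw [if_neg hx'] at hx ⊢
      obtain ⟨h2, h3⟩ := om_ne h hc hx
      obtain ⟨h4, h5, h6⟩ := h.row c hc x (mem_sdiff.1 h2).1 (mem_sdiff.1 h2).2 hx' h3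
      refine ⟨h4, ?_⟩
      rw [om, if_pos h2]; linarith
  have hvol := one_le_vol (d := d) (M := M) L
  have hΛ0 : 0 ≤ Λ := by positivity
  refine le_of_mul_le_mul_left ?_ (show 0 < vol d M L by linarith)
  calc _ = ∑ c ∈ Cs, ∑ p ∈ tball c L, ∑ x, om A w w' Cs B N c x * (ψ x - cc c) ^ 2 := by
        rw [mul_sum]
        exact sum_congr rfl fun c _ => by rw [sum_const, nsmul_eq_mul, card_tball]
    _ ≤ ∑ c ∈ Cs, ∑ p ∈ tball c L, Λ * E0 (φ p) := sum_le_sum fun c hc => sum_le_sum (h1 c hc)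
    _ = ∑ p, ((Cs.filter fun c => p ∈ tball c L).card : ℝ) * (Λ * E0 (φ p)) := by
        have : ∀ c, ∑ p ∈ tball c L, Λ * E0 (φ p) =
            ∑ p, if p ∈ tball c L then Λ * E0 (φ p) else 0 := fun c => by simp
        simp only [this]
        rw [sum_comm]
        exact sum_congr rfl fun p _ => by rw [← sum_filter, sum_const, nsmul_eq_mul]
    _ ≤ ∑ p, ov * (Λ * E0 (φ p)) := sum_le_sum fun p _ => by
        have := hE (φ p); gcongr; exact h.ovl p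
    _ ≤ ov * (Λ * (C * vol d M L * E0 ψ)) := by
        have : 0 ≤ ov := (Nat.cast_nonneg _).trans (h.ovl 0)
        rw [← mul_sum, ← mul_sum]; gcongr; exact hcut.ims ψ
    _ = _ := by rw [hΛ]; ring

/-- energy restricted to the complement of `T` -/
noncomputable def er (X : Matrix (Tor d M) (Tor d M) ℂ) (T : Finset (Tor d M)) (f : Tor d M → ℝ) : ℝ :=
  ∑ a ∈ univ \ T, ∑ b ∈ univ \ T, ‖X a b‖ ^ 2 * (f a - f b) ^ 2

theorem er_eq (X : Matrix (Tor d M) (Tor d M) ℂ) (T : Finset (Tor d M)) (f : Tor d M → ℝ) :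
    er X T f = ∑ a, ∑ b, if a ∉ T ∧ b ∉ T then ‖X a b‖ ^ 2 * (f a - f b) ^ 2 else 0 := by
  have e : univ \ T = univ.filter fun a => a ∉ T := by ext; simp
  simp only [er, e, sum_filter, ite_and]
  exact sum_congr rfl fun a _ => by split_ifs <;> simp

theorem En'_eq (h : RelH A w w' Cs B N S L e1 n1 tl θ ov) (f : Tor d M → ℝ) :
    2 * En (Km A w') f = er (Km A w') (Cs.biUnion B) f := by
  rw [er_eq, En, ← mul_assoc, show (2 : ℝ) * (1 / 2) = 1 by norm_num, one_mul]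
  refine sum_congr rfl fun a _ => sum_congr rfl fun b _ => ?_
  split_ifs with hab
  · rfl
  · rcases not_and_or.1 hab with e | e
    · simp [(Km_zero (h.closed a (not_not.1 e)) b).1]
    · simp [(Km_zero (h.closed b (not_not.1 e)) a).2]

theorem er_le_En (X : Matrix (Tor d M) (Tor d M) ℂ) (T : Finset (Tor d M)) (f : Tor d M → ℝ) :
    er X T f ≤ 2 * En X f := by
  rw [er_eq, En, ← mul_assoc, show (2 : ℝ) * (1 / 2) = 1 by norm_num, one_mul]
  refine sum_le_sum fun a _ => sum_le_sum fun b _ => ?_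
  split_ifs
  · exact le_rfl
  · positivity

theorem er_add_le (X Y : Matrix (Tor d M) (Tor d M) ℂ) (T : Finset (Tor d M)) (f : Tor d M → ℝ)
    (ht : 0 < t) : er Y T f ≤ (1 + t) * er X T f + (1 + 1 / t) * er (Y - X) T f ∧
      (1 - t) * er X T f - 1 / t * er (Y - X) T f ≤ er Y T f := by
  have h1 : ∀ x y : ℂ, ‖y‖ ^ 2 ≤ (1 + t) * ‖x‖ ^ 2 + (1 + 1 / t) * ‖y - x‖ ^ 2 ∧
      (1 - t) * ‖x‖ ^ 2 - 1 / t * ‖y - x‖ ^ 2 ≤ ‖y‖ ^ 2 := by
    intro x y
    have h2 : 2 * (‖x‖ * ‖y - x‖) ≤ t * ‖x‖ ^ 2 + 1 / t * ‖y - x‖ ^ 2 := by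
      have : 0 ≤ 1 / t * (t * ‖x‖ - ‖y - x‖) ^ 2 := by positivity
      have e : 1 / t * (t * ‖x‖ - ‖y - x‖) ^ 2 =
          t * ‖x‖ ^ 2 + 1 / t * ‖y - x‖ ^ 2 - 2 * (‖x‖ * ‖y - x‖) := by field_simp; ring
      linarith
    have h3 : ‖y‖ ≤ ‖x‖ + ‖y - x‖ := norm_le_norm_add_norm_sub' _ _
    have h4 : |‖x‖ - ‖y - x‖| ≤ ‖y‖ := by
      simpa [norm_sub_rev x y] using abs_norm_sub_norm_le x (-(y - x))
    have h5 := pow_le_pow_left₀ (norm_nonneg _) h3 2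
    have h6 := pow_le_pow_left₀ (abs_nonneg _) h4 2
    rw [sq_abs] at h6
    constructor <;> nlinarith [sq_nonneg ‖y - x‖]
  simp only [er, mul_sum, ← sum_add_distrib, ← sum_sub_distrib, Matrix.sub_apply]
  refine ⟨sum_le_sum fun a _ => sum_le_sum fun b _ => ?_,
    sum_le_sum fun a _ => sum_le_sum fun b _ => ?_⟩
  · nlinarith [mul_le_mul_of_nonneg_right (h1 (X a b) (Y a b)).1 (sq_nonneg (f a - f b))]
  · nlinarith [mul_le_mul_of_nonneg_right (h1 (X a b) (Y a b)).2 (sq_nonneg (f a - f b))]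

theorem er_D_le (h : RelH A w w' Cs B N S L e1 n1 tl θ ov) (ψ cc : Tor d M → ℝ) :
    er (Km A w' - Km A w) (Cs.biUnion B) ψ ≤
      tl * ∑ a, ∑ b, Real.exp (-θ * tdist a b) * (ψ a - ψ b) ^ 2 +
        4 * ∑ c ∈ Cs, ∑ x, om A w w' Cs B N c x * (ψ x - cc c) ^ 2 := by
  set G : Tor d M → Tor d M → ℝ := fun a b => ∑ c ∈ Cs, if a ∈ N c \ B c ∧ b ∉ Cs.biUnion B then
    ‖Km A w' a b - Km A w a b‖ ^ 2 * (ψ a - cc c) ^ 2 else 0 with hG
  have hG0 : ∀ a b, 0 ≤ G a b := fun a b => sum_nonneg fun c _ => by split_ifs <;> positivity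
  have htl := h.tl0
  have h1 : ∀ a b, (if a ∉ Cs.biUnion B ∧ b ∉ Cs.biUnion B then
      ‖(Km A w' - Km A w) a b‖ ^ 2 * (ψ a - ψ b) ^ 2 else 0) ≤
      tl * (Real.exp (-θ * tdist a b) * (ψ a - ψ b) ^ 2) + 2 * G a b + 2 * G b a := by
    intro a b
    have := hG0 a b
    have := hG0 b a
    split_ifs with hab
    swap
    · positivity
    rw [Matrix.sub_apply]
    by_cases hc : ∃ c ∈ Cs, a ∈ N c ∧ b ∈ N c
    · obtain ⟨c, hc, ha, hb⟩ := hc
      have k : ∀ a b, a ∈ N c → a ∉ Cs.biUnion B → b ∉ Cs.biUnion B →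
          ‖Km A w' a b - Km A w a b‖ ^ 2 * (ψ a - cc c) ^ 2 ≤ G a b := fun a b ha ha' hb' => by
        refine le_trans (le_of_eq ?_) (single_le_sum (fun c _ => by split_ifs <;> positivity) hc)
        rw [if_pos ⟨mem_sdiff.2 ⟨ha, fun e => ha' (mem_biUnion.2 ⟨c, hc, e⟩)⟩, hb'⟩]
      have h2 := k a b ha hab.1 hab.2
      have h3 := k b a hb hab.2 hab.1
      rw [Km_comm h.adm b a, Km_comm h.adm' b a] at h3
      have h4 : 0 ≤ tl * (Real.exp (-θ * tdist a b) * (ψ a - ψ b) ^ 2) := by positivity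
      nlinarith [mul_nonneg (sq_nonneg ‖Km A w' a b - Km A w a b‖)
        (sq_nonneg (ψ a - cc c + (ψ b - cc c)))]
    · nlinarith [mul_le_mul_of_nonneg_right (h.far a b hab.1 hab.2 hc) (sq_nonneg (ψ a - ψ b))]
  have h2 : ∑ a, ∑ b, G a b ≤ ∑ c ∈ Cs, ∑ x, om A w w' Cs B N c x * (ψ x - cc c) ^ 2 := by
    simp only [hG]
    rw [sum_congr rfl fun a _ => sum_comm, sum_comm]
    refine sum_le_sum fun c _ => sum_le_sum fun a _ => ?_
    by_cases ha : a ∈ N c \ B c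
    · have e : univ \ Cs.biUnion B = univ.filter fun a => a ∉ Cs.biUnion B := by ext; simp
      simp only [om, ha, true_and, if_true, ← sum_filter, ← sum_mul, ← e]
      gcongr
      exact le_add_of_nonneg_right (by positivity)
    · simp only [om, ha, false_and, if_false, sum_const_zero, zero_mul, le_refl]
  rw [er_eq]
  refine (sum_le_sum fun a _ => sum_le_sum fun b _ => h1 a b).trans ?_
  simp only [sum_add_distrib, ← mul_sum]
  rw [sum_comm (f := fun a b => G b a)]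
  linarith

theorem En_le_er (h : RelH A w w' Cs B N S L e1 n1 tl θ ov) {ψ cc : Tor d M → ℝ}
    (hψ : ∀ c ∈ Cs, ∀ b ∈ B c, ψ b = cc c) : 2 * En (Km A w) ψ ≤ er (Km A w) (Cs.biUnion B) ψ +
      tl * ∑ a, ∑ b, Real.exp (-θ * tdist a b) * (ψ a - ψ b) ^ 2 +
        2 * ∑ c ∈ Cs, ∑ x, om A w w' Cs B N c x * (ψ x - cc c) ^ 2 := by
  set G : Tor d M → Tor d M → ℝ := fun a b => ∑ c ∈ Cs, if a ∈ N c \ B c ∧ b ∈ B c then
    ‖Km A w a b‖ ^ 2 * (ψ a - cc c) ^ 2 else 0 with hG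
  have hG0 : ∀ a b, 0 ≤ G a b := fun a b => sum_nonneg fun c _ => by split_ifs <;> positivity
  have htl := h.tl0
  have k : ∀ a, ∀ b ∈ Cs.biUnion B, ‖Km A w a b‖ ^ 2 * (ψ a - ψ b) ^ 2 ≤
      tl * (Real.exp (-θ * tdist a b) * (ψ a - ψ b) ^ 2) + G a b := by
    intro a b hb
    obtain ⟨c, hc, hb⟩ := mem_biUnion.1 hb
    have := hG0 a b
    have h4 : 0 ≤ tl * (Real.exp (-θ * tdist a b) * (ψ a - ψ b) ^ 2) := by positivity
    by_cases ha : a ∈ N c
    · by_cases ha' : a ∈ B c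
      · rw [hψ c hc a ha', hψ c hc b hb]; simpa using this
      · refine le_trans ?_ (le_add_of_nonneg_left h4)
        refine le_trans (le_of_eq ?_) (single_le_sum (fun c _ => by split_ifs <;> positivity) hc)
        rw [if_pos ⟨mem_sdiff.2 ⟨ha, ha'⟩, hb⟩, hψ c hc b hb]
    · nlinarith [mul_le_mul_of_nonneg_right (h.far' c hc b hb a ha) (sq_nonneg (ψ a - ψ b))]
  have h1 : ∀ a b, ‖Km A w a b‖ ^ 2 * (ψ a - ψ b) ^ 2 ≤
      (if a ∉ Cs.biUnion B ∧ b ∉ Cs.biUnion B then ‖Km A w a b‖ ^ 2 * (ψ a - ψ b) ^ 2 else 0) +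
      tl * (Real.exp (-θ * tdist a b) * (ψ a - ψ b) ^ 2) + G a b + G b a := by
    intro a b
    have := hG0 a b
    have := hG0 b a
    have h4 : 0 ≤ tl * (Real.exp (-θ * tdist a b) * (ψ a - ψ b) ^ 2) := by positivity
    split_ifs with hab
    · linarith
    rcases not_and_or.1 hab with e | e
    · have := k b a (not_not.1 e)
      rw [Km_comm h.adm b a, tdist_comm b a, ← neg_sub (ψ a), neg_sq] at this
      linarith
    · have := k a b (not_not.1 e)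
      linarith
  have h2 : ∑ a, ∑ b, G a b ≤ ∑ c ∈ Cs, ∑ x, om A w w' Cs B N c x * (ψ x - cc c) ^ 2 := by
    simp only [hG]
    rw [sum_congr rfl fun a _ => sum_comm, sum_comm]
    refine sum_le_sum fun c _ => sum_le_sum fun a _ => ?_
    by_cases ha : a ∈ N c \ B c
    · simp only [om, ha, true_and, if_true, sum_ite_mem, univ_inter, ← sum_mul]
      gcongr
      exact le_add_of_nonneg_left (by positivity)
    · simp only [om, ha, false_and, if_false, sum_const_zero, zero_mul, le_refl]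
  rw [er_eq, En, ← mul_assoc, show (2 : ℝ) * (1 / 2) = 1 by norm_num, one_mul]
  refine (sum_le_sum fun a _ => sum_le_sum fun b _ => h1 a b).trans ?_
  simp only [sum_add_distrib, ← mul_sum]
  rw [sum_comm (f := fun a b => G b a)]
  linarith

end Rl

open Rl

theorem RelH.LB (h : RelH A w w' Cs B N S L e1 n1 tl θ ov) (hL : LB E0 A w ε) (hE : ∀ ψ, 0 ≤ E0 ψ)
    (hε : 0 ≤ ε) (hcut : Cut E0 σ C L χ cp) (hμ : 0 < μ) (hC : Cap E0 μ S a F) (ha : 0 ≤ a) (hF : 0 ≤ F)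
    (hn1 : 0 ≤ n1) (hP : ∀ ψ : Tor d M → ℝ, ∑ a, ∑ b, Real.exp (-θ * tdist a b) * (ψ a - ψ b) ^ 2 ≤ P * E0 ψ)
    (ht : 0 < t) (ht1 : t ≤ 1) : LB E0 A w' (ε + t + 2 * relC C μ a F e1 n1 tl ov P / t) := by
  intro f hf
  obtain ⟨cc, hcc⟩ := exists_ctr (A := A) (w := w) (w' := w') (Cs := Cs) (B := B) (N := N) f
  have hex : ∃ g : Tor d M → ℝ, (∀ c ∈ Cs, ∀ b ∈ B c, g b = cc c) ∧
      ∀ a, a ∉ Cs.biUnion B → g a = f a := by
    refine ⟨fun a => if ha : ∃ c ∈ Cs, a ∈ B c then cc ha.choose else f a, fun c hc b hb => ?_,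
      fun a ha => dif_neg fun e => ha (mem_biUnion.2 e)⟩
    have ha : ∃ c ∈ Cs, b ∈ B c := ⟨c, hc, hb⟩
    simp only [dif_pos ha]
    by_contra e
    exact disjoint_left.1 (h.disj _ ha.choose_spec.1 c hc fun e' => e (by rw [e']))
      (h.sub _ ha.choose_spec.1 ha.choose_spec.2) (h.sub c hc hb)
  obtain ⟨g, hg1, hg2⟩ := hex
  obtain ⟨ψ, hψ, hψg, hle⟩ := hL g fun x hx => by
    rw [hg2 x fun e => h.core x e hx, hf x hx]
  have hp : ∀ a, gam w' a ≠ 0 → ψ a = f a := fun a ha => by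
    have h1 : a ∉ Cs.biUnion B := fun e => ha (h.closed a e)
    rw [hψg a (h.same a h1 ▸ ha), hg2 a h1]
  have hcc' : Ctr A w w' Cs B N ψ cc := fun c hc => by
    have e : ∀ x, ∑ a, om A w w' Cs B N c a * (ψ a - x) ^ 2 =
        ∑ a, om A w w' Cs B N c a * (f a - x) ^ 2 := fun x => sum_congr rfl fun a _ => by
      by_cases e : om A w w' Cs B N c a = 0
      · simp [e]
      · obtain ⟨h1, h2⟩ := om_ne h hc e
        rw [hψg a h2, hg2 a (not_mem h hc h1)]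
    simp only [e]
    exact hcc c hc
  refine ⟨ψ, hψ, hp, ?_⟩
  rw [En_congr (f := f) (g := ψ) fun x hx => (hp x hx).symm]
  rw [En_congr (f := g) (g := ψ) fun x hx => (hψg x hx).symm] at hle
  have h1 := cluster h hE hcut hμ hC ha hF hn1 hψ hcc'
  have h2 := En_le_er h (ψ := ψ) (cc := cc) fun c hc b hb => by
    rw [hψg b (h.port b (mem_biUnion.2 ⟨c, hc, hb⟩)), hg1 c hc b hb]
  have h3 := er_D_le h ψ cc
  have h4 := (er_add_le (Km A w) (Km A w') (Cs.biUnion B) ψ ht).2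
  have h5 := mul_le_mul_of_nonneg_left (hP ψ) h.tl0
  rw [← En'_eq h] at h4
  set X := ∑ c ∈ Cs, ∑ x, om A w w' Cs B N c x * (ψ x - cc c) ^ 2
  set Y := tl * ∑ a, ∑ b, Real.exp (-θ * tdist a b) * (ψ a - ψ b) ^ 2
  have hX : 0 ≤ X := sum_nonneg fun c _ => sum_nonneg fun x _ =>
    mul_nonneg (om_nonneg c x) (sq_nonneg _)
  have hY : 0 ≤ Y := by have := h.tl0; positivity
  have h6 : 4 * X + 4 * Y ≤ 2 * relC C μ a F e1 n1 tl ov P * E0 ψ := by
    have : 2 * relC C μ a F e1 n1 tl ov P * E0 ψ =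
      4 * (2 * ov * C * (a * e1 + F * n1) / μ * E0 ψ) + 4 * (tl * (P * E0 ψ)) := by unfold relC; ring
    linarith
  have h7 : 1 ≤ 1 / t := by rw [le_div_iff₀ ht]; linarith
  have h8 := mul_le_mul_of_nonneg_left h6 (zero_le_one.trans h7)
  have h9 := mul_le_mul_of_nonneg_left h3 (zero_le_one.trans h7)
  have h10 := mul_le_mul_of_nonneg_left (show 2 * ((1 - ε) * E0 ψ) - Y - 2 * X ≤
    er (Km A w) (Cs.biUnion B) ψ by linarith) (sub_nonneg.2 ht1)
  have h11 := mul_le_mul_of_nonneg_right h7 hX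
  have h12 := mul_le_mul_of_nonneg_right h7 hY
  have e : (1 - (ε + t + 2 * relC C μ a F e1 n1 tl ov P / t)) * E0 ψ =
      (1 - ε - t) * E0 ψ - 1 / t * (2 * relC C μ a F e1 n1 tl ov P * E0 ψ) := by ring
  rw [e]
  nlinarith [mul_nonneg (mul_nonneg hε ht.le) (hE ψ), mul_nonneg ht.le hX, mul_nonneg ht.le hY]

theorem RelH.UB (h : RelH A w w' Cs B N S L e1 n1 tl θ ov) (hU : UB E0 A w ε) (hE : ∀ ψ, 0 ≤ E0 ψ)
    (hε : ε ≤ 1) (hcut : Cut E0 σ C L χ cp) (hμ : 0 < μ) (hC : Cap E0 μ S a F) (ha : 0 ≤ a) (hF : 0 ≤ F)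
    (hn1 : 0 ≤ n1) (hP : ∀ ψ : Tor d M → ℝ, ∑ a, ∑ b, Real.exp (-θ * tdist a b) * (ψ a - ψ b) ^ 2 ≤ P * E0 ψ)
    (ht : 0 < t) (ht1 : t ≤ 1) : UB E0 A w' (ε + 2 * t + 2 * relC C μ a F e1 n1 tl ov P / t) := by
  intro ψ hψ
  obtain ⟨cc, hcc⟩ := exists_ctr (A := A) (w := w) (w' := w') (Cs := Cs) (B := B) (N := N) ψ
  have h1 := cluster h hE hcut hμ hC ha hF hn1 hψ hcc
  have h2 := (er_le_En (Km A w) (Cs.biUnion B) ψ).trans
    (mul_le_mul_of_nonneg_left (hU ψ hψ) zero_le_two)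
  have h3 := er_D_le h ψ cc
  have h4 := (er_add_le (Km A w) (Km A w') (Cs.biUnion B) ψ ht).1
  have h5 := mul_le_mul_of_nonneg_left (hP ψ) h.tl0
  rw [← En'_eq h] at h4
  set X := ∑ c ∈ Cs, ∑ x, om A w w' Cs B N c x * (ψ x - cc c) ^ 2
  set Y := tl * ∑ a, ∑ b, Real.exp (-θ * tdist a b) * (ψ a - ψ b) ^ 2
  have hX : 0 ≤ X := sum_nonneg fun c _ => sum_nonneg fun x _ =>
    mul_nonneg (om_nonneg c x) (sq_nonneg _)
  have hY : 0 ≤ Y := by have := h.tl0; positivity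
  have h6 : 4 * X + 4 * Y ≤ 2 * relC C μ a F e1 n1 tl ov P * E0 ψ := by
    have : 2 * relC C μ a F e1 n1 tl ov P * E0 ψ =
      4 * (2 * ov * C * (a * e1 + F * n1) / μ * E0 ψ) + 4 * (tl * (P * E0 ψ)) := by unfold relC; ring
    linarith
  have h7 : 1 ≤ 1 / t := by rw [le_div_iff₀ ht]; linarith
  have h8 := mul_le_mul_of_nonneg_left h6 (zero_le_one.trans h7)
  have h9 := mul_le_mul_of_nonneg_left h3 (show 0 ≤ 1 + 1 / t by positivity)
  have h10 := mul_le_mul_of_nonneg_left h2 (show 0 ≤ 1 + t by positivity)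
  have h11 := mul_le_mul_of_nonneg_right h7 hX
  have h12 := mul_le_mul_of_nonneg_right h7 hY
  have e : (1 + (ε + 2 * t + 2 * relC C μ a F e1 n1 tl ov P / t)) * E0 ψ =
      (1 + ε + 2 * t) * E0 ψ + 1 / t * (2 * relC C μ a F e1 n1 tl ov P * E0 ψ) := by ring
  rw [e]
  nlinarith [mul_nonneg (mul_nonneg (sub_nonneg.2 hε) ht.le) (hE ψ),
    mul_nonneg (zero_le_one.trans h7) hY]

end Crest.Agent.N334.AC.M6
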