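import Crest.Agent.N334.AC.M6.Glue
import Crest.Agent.N334.AC.M6.Rel
import Crest.Agent.N334.AC.P.Sched3

/-!
# Row 334, S0520 (helper73): block M6 on the schedule `Sch`
-/

set_option autoImplicit false

open Matrix Finset
open scoped Matrix.Norms.L2Operator

namespace Crest.Agent.N334.AC.M6

variable (s : Sch) (k : ℕ)

/-- scale of the monitor M6 (threshold `vpT ^ 4`) -/
noncomputable def s6 : ℝ := 1 / s.vpT k ^ 4

theorem vpT_pos : 0 < s.vpT k := s.vp_pos _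
theorem vp_le_vpT : s.vp k ≤ s.vpT k := s.vp_anti (Nat.sub_le _ _)
theorem vpT_le : s.vpT k ≤ s.vp 0 := s.vp_anti (Nat.zero_le _)
theorem s6_pos : 0 < s6 s k := by have := vpT_pos s k; unfold s6; positivity
theorem y1 : (1 : ℝ) ≤ s.y k := Sch.S2.y1 s k

theorem vpT_le_one : s.vpT k ≤ 1 :=
  le_trans (le_mul_of_one_le_right (vpT_pos s k).le (one_le_pow₀ (y1 s k))) (s.vpT_y k)

theorem vpT_eq (hk : k ≤ 1) : s.vpT k = s.vp 0 := by rw [Sch.vpT, show k - 1 = 0 by omega]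

theorem C_le : 10 ^ 20 * s.C ^ 20 ≤ s.y k := by
  have := s.three_le_d
  have := s.hC
  exact le_trans (le_mul_of_one_le_right (by positivity) (one_le_pow₀ (by linarith))) (s.cst_le k)

/-- master inequality -/
theorem master {c : ℝ} {a b n : ℕ} (hc : c ≤ 10 ^ 20) (ha : a ≤ 20) (hb : b ≤ 99) (hn : 1 ≤ n) :
    c * s.C ^ a * (s.y k : ℝ) ^ b * s.vpT k ^ n ≤ 1 := by
  have h1 := y1 s k
  have h2 := vpT_pos s k
  have h3 := s.hC
  calc _ ≤ 10 ^ 20 * s.C ^ 20 * (s.y k : ℝ) ^ 99 * s.vpT k ^ 1 := by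
        gcongr ?_ * ?_ * ?_ * ?_
        · exact pow_le_pow_right₀ h3 ha
        · exact pow_le_pow_right₀ h1 hb
        · exact pow_le_pow_of_le_one h2.le (vpT_le_one s k) hn
    _ ≤ s.y k * (s.y k : ℝ) ^ 99 * s.vpT k ^ 1 := by gcongr; exact C_le s k
    _ = s.vpT k * (s.y k : ℝ) ^ 100 := by ring
    _ ≤ 1 := s.vpT_y k

theorem tt_le_vp : s.tt k ≤ s.vp k ^ 24 * s.σ ^ 20 := by
  have h1 := s.hh_ge k (s.J k) ((s.J_lt k).le.trans (Nat.le_succ _))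
  have h2 := s.x_le k (s.J k) le_rfl
  have h3 := s.σ0
  have h4 := s.σ_le_one
  have h5 := s.hh_pos k (s.J k)
  rw [Sch.x, div_le_iff₀ h3] at h2
  have h6 : (2 : ℝ) ^ (-(s.y k : ℝ) ^ 4) ≤ 1 :=
    Real.rpow_le_one_of_one_le_of_nonpos one_le_two (neg_nonpos.2 (by positivity))
  calc _ ≤ _ := s.tt_le k
    _ ≤ (2 : ℝ) ^ (-(s.y k : ℝ) ^ 4) := pow_le_of_le_one (by positivity) h6 (by norm_num)
    _ ≤ s.vp k ^ 24 * s.σ * s.σ ^ 100 := h1.trans (by gcongr)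
    _ = s.vp k ^ 24 * s.σ ^ 101 := by ring
    _ ≤ _ := by
      have := s.vp_pos k
      exact mul_le_mul_of_nonneg_left (pow_le_pow_of_le_one h3.le h4 (by norm_num)) (by positivity)

theorem tt_le_vpT : s.tt k ≤ s.vpT k ^ 24 * s.σ ^ 2 := by
  have := s.vp_pos k
  have := s.σ0
  exact (tt_le_vp s k).trans (mul_le_mul (pow_le_pow_left₀ (by positivity) (vp_le_vpT s k) _)
    (pow_le_pow_of_le_one this.le s.σ_le_one (by norm_num)) (by positivity)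
    (by have := vpT_pos s k; positivity))

variable {s k} {M : ℕ} [NeZero M] {E : ℝ} {w0 : ℂ}

theorem E00_nonneg (ψ : Tor s.d M → ℝ) : 0 ≤ E00 s.d M E w0 ψ := En_nn _ _

theorem mu0_pos (h : Init s.d M s.C s.σ E w0) : 0 < mu0 s.d M E w0 := by
  have := s.hC
  have := s.σ0
  exact lt_of_lt_of_le (by positivity) (mu0_ge h (by linarith))

theorem Cσ_le : s.C * s.σ ^ 2 ≤ s.vp 0 ^ 3 := by
  have h1 := master s 0 (c := 1) (a := 1) (b := 0) (n := 189) (by norm_num) (by norm_num)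
    (by norm_num) (by norm_num)
  rw [vpT_eq s 0 zero_le_one] at h1
  rw [← s.vp0_pow]
  have := s.vp_pos 0
  calc _ = 1 * s.C ^ 1 * (s.y 0 : ℝ) ^ 0 * s.vp 0 ^ 189 * s.vp 0 ^ 3 := by ring
    _ ≤ _ := mul_le_of_le_one_left (by positivity) h1

/-- capacity bound on `2^j`-separated sets -/
theorem cap_FO (h : Init s.d M s.C s.σ E w0) {j : ℕ} {S : Finset (Tor s.d M)} (hS : Sep (2 ^ j) S)
    (hj : 2 ^ j ≤ 2 * M) : Cap (E00 s.d M E w0) (mu0 s.d M E w0) S (1 + s.vp 0 ^ 3) (s.FO j) := by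
  rcases s.FO_cases j with e | e
  · have h1 := vpT_le_one s 0
    rw [vpT_eq s 0 zero_le_one] at h1
    have h0 := s.vp_pos 0
    exact (cap_one h (pow_pos h0 3) (pow_le_one₀ h0.le h1)).mono E00_nonneg (subset_univ _) le_rfl e.ge
  · exact (cap_two h hj (s.FO_pos j) e hS).mono E00_nonneg subset_rfl (by linarith [Cσ_le (s := s)])
      le_rfl

theorem vp0_cube_le : 1 + s.vp 0 ^ 3 ≤ 2 := by
  have h1 := vpT_le_one s 0
  rw [vpT_eq s 0 zero_le_one] at h1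
  linarith [pow_le_one₀ (n := 3) (s.vp_pos 0).le h1]

/-- capacity bound on the tame ports -/
theorem cap_T (h : Init s.d M s.C s.σ E w0) {T : Finset (Tor s.d M)} (hT : Sep (2 ^ s.J (k - 1)) T)
    (hj : 2 ^ s.J (k - 1) ≤ 2 * M) :
    Cap (E00 s.d M E w0) (mu0 s.d M E w0) T 2 (s.vpT k ^ 24 * s.σ ^ 2) :=
  (cap_FO h hT hj).mono E00_nonneg subset_rfl vp0_cube_le (s.FT_le k)

theorem cap_univ (h : Init s.d M s.C s.σ E w0) : Cap (E00 s.d M E w0) (mu0 s.d M E w0) univ 2 1 := by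
  refine (cap_one h one_pos le_rfl).mono E00_nonneg subset_rfl (by norm_num) ?_
  have h1 := Cσ_le (s := s)
  have h2 := vp0_cube_le (s := s)
  have h3 := s.σ_le_one
  have h4 := s.σ0
  have h5 := s.hC
  have : s.C * s.σ ^ 3 ≤ s.C * s.σ ^ 2 := by gcongr ?_ * ?_; exact pow_le_pow_of_le_one h4.le h3 (by norm_num)
  linarith

/-- the row of an active port, in the units of the schedule -/
structure RowS (s : Sch) (k : ℕ) {M : ℕ} [NeZero M] (E : ℝ) (w0 : ℂ) (w : Tor s.d M → ℂ)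
    (y : Tor s.d M) (Q T Cr : Finset (Tor s.d M)) : Prop where
  cover : ∀ b ∈ Q, b ≠ y → gam w b ≠ 0 → b ∈ T ∨ b ∈ Cr
  ent : ∀ b ∈ Q, b ∈ T → b ≠ y → gam w b ≠ 0 → ‖Gm (Aop s.d M E) w b y‖ ≤ 10 * s.vpT k ^ 12 +
    if k ≤ 1 ∧ s.vs 0 < ‖Gm (Aop s.d M E) (fun _ => w0) b y‖ then
      ‖Gm (Aop s.d M E) (fun _ => w0) b y‖ else 0
  gam_le : ∀ b ∈ Q, b ∈ T → gam w b ≤ 10 * s.C * s.σ ^ 2
  diag : ∀ b ∈ Q, b ∈ T → gam w b ≠ 0 → k ≤ 1 → (Gm (Aop s.d M E) w b b).im ≤ 10 * s.C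
  core : ∑ b ∈ (Q ∩ Cr).erase y, gam w b * ‖Gm (Aop s.d M E) w b y‖ ^ 2 ≤ s.vpT k ^ 24 * s.σ ^ 2
  i0 : 1 / (10 * s.C) ≤ (Gm (Aop s.d M E) w y y).im - gam w y * ‖Gm (Aop s.d M E) w y y‖ ^ 2
  i1 : (Gm (Aop s.d M E) w y y).im ≤ 10 * s.C

/-- near profile on the schedule -/
noncomputable def rS (s : Sch) (k M : ℕ) [NeZero M] (E : ℝ) (w0 : ℂ) (y b : Tor s.d M) : ℝ :=
  if k ≤ 1 then near s.d M E w0 (10 * s.C * s.σ ^ 2) (s.vs 0 ^ 2) y b else 0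

variable {w : Tor s.d M → ℂ} {y : Tor s.d M} {Q T Cr : Finset (Tor s.d M)}

theorem σ_eq (hk : k ≤ 1) : s.σ = s.vpT k ^ 96 := by rw [vpT_eq s k hk, s.vp0_pow]

theorem RowS.row (h : RowS s k E w0 w y Q T Cr) (hI : Init s.d M s.C s.σ E w0)
    (hA : Adm (Aop s.d M E) w) : Row (Aop s.d M E) w y Q T Cr (rS s k M E w0 y)
      (2000 * s.C * (s.vpT k ^ 24 * s.σ ^ 2)) (2020 * s.C ^ 3 * (s.vpT k ^ 8 * s.σ))
      (s.vpT k ^ 24 * s.σ ^ 2) (1 / (10 * s.C)) (10 * s.C) (100 * s.C ^ 2 * s.σ ^ 2)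
      (20 * s.C ^ 2 * s.vpT k ^ 24) (400 * s.C ^ 3 * (s.vpT k ^ 24 * s.σ ^ 2)) := by
  have hC := s.hC
  have hσ := s.σ0
  have hv := vpT_pos s k
  have hv1 := vpT_le_one s k
  have hent : ∀ b ∈ Q, b ∈ T → b ≠ y → gam w b * ‖Gm (Aop s.d M E) w b y‖ ^ 2 ≤
      2000 * s.C * (s.vpT k ^ 24 * s.σ ^ 2) + rS s k M E w0 y b := by
    intro b hb hb' hy
    have hr : 0 ≤ rS s k M E w0 y b := by
      unfold rS; split_ifs; exacts [near_nonneg (by positivity) _ _, le_rfl]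
    by_cases e : gam w b = 0
    · rw [e, zero_mul]; positivity
    have h1 := pow_le_pow_left₀ (norm_nonneg _) (h.ent b hb hb' hy e) 2
    have h2 := h.gam_le b hb hb'
    refine (mul_le_mul h2 h1 (by positivity) (by positivity)).trans ?_
    have hvs : 0 ≤ s.vs 0 := pow_nonneg (s.vp_pos 0).le _
    by_cases hk : k ≤ 1 ∧ s.vs 0 < ‖Gm (Aop s.d M E) (fun _ => w0) b y‖
    · rw [if_pos hk, rS, if_pos hk.1, near, if_pos (pow_lt_pow_left₀ hk.2 hvs two_ne_zero)]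
      nlinarith [mul_nonneg (show 0 ≤ 10 * s.C * s.σ ^ 2 by positivity)
        (sq_nonneg (10 * s.vpT k ^ 12 - ‖Gm (Aop s.d M E) (fun _ => w0) b y‖))]
    · rw [if_neg hk]
      nlinarith [show 0 ≤ s.C * (s.vpT k ^ 24 * s.σ ^ 2) by positivity]
  have hr1 : ∀ b, rS s k M E w0 y b ≤ 20 * s.C ^ 3 * (s.vpT k ^ 8 * s.σ) := fun b => by
    unfold rS near
    split_ifs with hk
    · have h1 := pow_le_pow_left₀ (norm_nonneg _) (hI.sup b y) 2
      have h2 : s.σ ≤ s.vpT k ^ 8 := by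
        rw [σ_eq hk]; exact pow_le_pow_of_le_one hv.le hv1 (by norm_num)
      calc _ ≤ 2 * (10 * s.C * s.σ ^ 2) * s.C ^ 2 := by gcongr
        _ = 20 * s.C ^ 3 * (s.σ * s.σ) := by ring
        _ ≤ _ := by gcongr
    all_goals positivity
  refine ⟨h.cover, hent, fun b hb hb' hy => (hent b hb hb' hy).trans ?_, h.core, h.i0, h.i1,
    fun b hb hb' hr => ?_, fun b => ?_, ?_, ?_, by positivity, by positivity, by positivity,
    by positivity⟩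
  · have h1 : s.C * (s.vpT k ^ 24 * s.σ ^ 2) ≤ s.C ^ 3 * (s.vpT k ^ 8 * s.σ) := by
      gcongr ?_ * (?_ * ?_)
      · exact le_self_pow₀ hC (by norm_num)
      · exact pow_le_pow_of_le_one hv.le hv1 (by norm_num)
      · exact pow_le_of_le_one hσ.le s.σ_le_one (by norm_num)
    linarith [hr1 b]
  · by_cases e : gam w b = 0
    · rw [e, zero_mul]; positivity
    have hk : k ≤ 1 := by by_contra hk; exact hr (if_neg hk)
    have h1 := h.diag b hb hb' e hk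
    have h2 := h.gam_le b hb hb'
    calc _ ≤ gam w b * (10 * s.C) := mul_le_mul_of_nonneg_left h1 (hA.diss b)
      _ ≤ 10 * s.C * s.σ ^ 2 * (10 * s.C) := by gcongr
      _ = _ := by ring
  · unfold rS; split_ifs; exacts [near_nonneg (by positivity) _ _, le_rfl]
  · by_cases hk : k ≤ 1
    · simp only [rS, hk, if_true]
      have hvs : s.vs 0 ^ 2 = s.vpT k ^ 24 := by rw [Sch.vs, vpT_eq s k hk]; ring
      refine (sum_near_le hI (by positivity) (by rw [hvs]; positivity) y).trans ?_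
      rw [hvs, div_le_iff₀ (by positivity)]
      calc _ = 20 * s.C ^ 2 * s.σ := by field_simp; ring
        _ ≤ 20 * s.C ^ 2 * s.vpT k ^ 48 := by
          gcongr; rw [σ_eq hk]; exact pow_le_pow_of_le_one hv.le hv1 (by norm_num)
        _ = _ := by ring
    · simp only [rS, hk, if_false, sum_const_zero]; positivity
  · by_cases hk : k ≤ 1
    · simp only [rS, hk, if_true]
      refine (sum_near_sq_le hI y).trans ?_
      calc _ = 400 * s.C ^ 3 * (s.σ * s.σ ^ 2) := by field_simp; ring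
        _ ≤ _ := by
          gcongr; rw [σ_eq hk]; exact pow_le_pow_of_le_one hv.le hv1 (by norm_num)
    · simp only [rS, hk, if_false, ne_eq, OfNat.ofNat_ne_zero, not_false_eq_true, zero_pow,
        sum_const_zero]; positivity

theorem rS_form (hI : Init s.d M s.C s.σ E w0) (f : Tor s.d M → ℝ) :
    ∑ y, ∑ x, rS s k M E w0 y x ^ 2 * (f x - f y) ^ 2 ≤
      800 * s.C ^ 6 * s.vpT k ^ 24 * E00 s.d M E w0 f := by
  have hC := s.hC
  have hσ := s.σ0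
  have hv := vpT_pos s k
  have hv1 := vpT_le_one s k
  have hE := E00_nonneg (E := E) (w0 := w0) f
  by_cases hk : k ≤ 1
  swap
  · simp only [rS, hk, if_false, ne_eq, OfNat.ofNat_ne_zero, not_false_eq_true, zero_pow, zero_mul,
      sum_const_zero]; positivity
  simp only [rS, hk, if_true]
  have hvs : s.vs 0 ^ 2 = s.vpT k ^ 24 := by rw [Sch.vs, vpT_eq s k hk]; ring
  refine (near_form_le hI (by linarith) hσ (by rw [hvs]; positivity) f).trans ?_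
  refine mul_le_mul_of_nonneg_right ?_ hE
  have hσv : s.σ ≤ s.vpT k ^ 24 := by
    rw [σ_eq hk]; exact pow_le_pow_of_le_one hv.le hv1 (by norm_num)
  have hy := y1 s k
  have h1 : 0 ≤ Real.log (s.C ^ 2 / (s.σ ^ 4 * s.vs 0 ^ 2)) := by
    refine Real.log_nonneg ?_
    rw [hvs, le_div_iff₀ (by positivity), one_mul]
    exact (mul_le_one₀ (pow_le_one₀ hσ.le s.σ_le_one) (by positivity)
      (pow_le_one₀ hv.le hv1)).trans (one_le_pow₀ hC)
  have h2 : Real.log (s.C ^ 2 / (s.σ ^ 4 * s.vs 0 ^ 2)) ≤ (s.y k : ℝ) ^ 4 := by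
    have h3 : s.C ^ 2 / (s.σ ^ 4 * s.vs 0 ^ 2) ≤ s.C ^ 2 / s.σ ^ 5 := by
      rw [hvs, pow_succ s.σ 4]; gcongr
    refine (Real.log_le_log (by rw [hvs]; positivity) h3).trans ?_
    rw [Real.log_div (by positivity) (by positivity), Real.log_pow, Real.log_pow]
    have h4 := Real.log_le_sub_one_of_pos (show 0 < s.C by linarith)
    have h5 := s.large
    have h6 : (s.y0 : ℝ) ^ 4 ≤ (s.y k : ℝ) ^ 4 := by gcongr; exact_mod_cast s.y0_le k
    have h7 := C_le s k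
    have h8 : s.C ≤ s.C ^ 20 := le_self_pow₀ hC (by norm_num)
    have h9 : (s.y k : ℝ) ≤ (s.y k : ℝ) ^ 4 := le_self_pow₀ hy (by norm_num)
    push_cast
    linarith
  have h3 : 1 + (s.C / 2 * Real.log (s.C ^ 2 / (s.σ ^ 4 * s.vs 0 ^ 2))) ^ 2 ≤
      2 * (s.C ^ 2 * (s.y k : ℝ) ^ 8) := by
    have h4 : (s.C / 2 * Real.log (s.C ^ 2 / (s.σ ^ 4 * s.vs 0 ^ 2))) ^ 2 ≤
        (s.C * (s.y k : ℝ) ^ 4) ^ 2 := by gcongr; linarith
    have h5 : 1 ≤ s.C ^ 2 * (s.y k : ℝ) ^ 8 := one_le_mul_of_one_le_of_one_le (one_le_pow₀ hC)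
      (one_le_pow₀ hy)
    nlinarith
  have h4 := master s k (c := 1) (a := 0) (b := 8) (n := 72) (by norm_num) (by norm_num)
    (by norm_num) (by norm_num)
  calc _ ≤ 4 * (10 * s.C * s.σ ^ 2) ^ 2 * (s.C / s.σ) *
        (s.C * (2 * (s.C ^ 2 * (s.y k : ℝ) ^ 8)) / s.σ ^ 2) := by gcongr
    _ = 800 * s.C ^ 6 * (s.y k : ℝ) ^ 8 * s.σ := by field_simp; ring
    _ = 800 * s.C ^ 6 * s.vpT k ^ 24 * (1 * s.C ^ 0 * (s.y k : ℝ) ^ 8 * s.vpT k ^ 72) := by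
      conv_lhs => rw [σ_eq hk]
      ring
    _ ≤ _ := mul_le_of_le_one_right (by positivity) h4

theorem jump_num {μ : ℝ} (hμ : s.σ ^ 2 / s.C ^ 2 ≤ μ) : (s.Z k : ℝ) * (s6 s k * (2 * s.σ) *
    lamC 2 (s.vpT k ^ 24 * s.σ ^ 2) 2 1 (2020 * s.C ^ 3 * (s.vpT k ^ 8 * s.σ))
      (s.vpT k ^ 24 * s.σ ^ 2) (10 * s.C) / μ) ≤ 1 := by
  have hC := s.hC
  have hσ := s.σ0
  have hv := vpT_pos s k
  have hv1 := vpT_le_one s k
  have h1 : s.vpT k ^ 24 * s.σ ^ 2 ≤ s.vpT k ^ 8 * s.σ := by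
    gcongr ?_ * ?_
    · exact pow_le_pow_of_le_one hv.le hv1 (by norm_num)
    · exact pow_le_of_le_one hσ.le s.σ_le_one (by norm_num)
  have h2 : s.C ≤ s.C ^ 3 := le_self_pow₀ hC (by norm_num)
  have h3 : lamC 2 (s.vpT k ^ 24 * s.σ ^ 2) 2 1 (2020 * s.C ^ 3 * (s.vpT k ^ 8 * s.σ))
      (s.vpT k ^ 24 * s.σ ^ 2) (10 * s.C) ≤ 10000 * s.C ^ 3 * (s.vpT k ^ 8 * s.σ) := by
    have h4 := mul_le_mul h2 h1 (by positivity) (by positivity)
    have h5 := mul_le_mul (hC.trans h2) h1 (by positivity) (by positivity)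
    unfold lamC; nlinarith [show 0 ≤ s.C ^ 3 * (s.vpT k ^ 8 * s.σ) by positivity]
  refine le_trans ?_ (master s k (c := 20000) (a := 5) (b := 15) (n := 4) (by norm_num) (by norm_num)
    (by norm_num) (by norm_num))
  have := s6_pos s k
  calc _ ≤ (s.Z k : ℝ) * (s6 s k * (2 * s.σ) * (10000 * s.C ^ 3 * (s.vpT k ^ 8 * s.σ)) /
        (s.σ ^ 2 / s.C ^ 2)) := by gcongr
    _ = _ := by rw [s6, Sch.Z]; push_cast; field_simp; ring

variable {B : Type} [Fintype B] [DecidableEq B] {n : Matrix (Tor s.d M) B ℝ}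

/-- one jump of M6 is at most `1 / Z` -/
theorem jumpS (hI : Init s.d M s.C s.σ E w0) (hA : Adm (Aop s.d M E) w) {L : ℕ} {p : Tor s.d M}
    (hn : Nrm (E00 s.d M E w0) (Qp L p) n) (hT : Sep (2 ^ s.J (k - 1)) T)
    (hj : 2 ^ s.J (k - 1) ≤ 2 * M) (hR : RowS s k E w0 w y (Qp L p) T Cr) {τ : ℂ}
    (hτ : ‖τ‖ ≤ 2 * s.σ) : (s.Z k : ℝ) * ‖nrmM n (s6 s k) (XM (Aop s.d M E) w y τ)‖ ≤ 1 := by
  have hσ := s.σ0
  have hv := vpT_pos s k
  have h6 := s6_pos s k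
  have hμ := mu0_pos hI
  have hl := (hR.row hI hA).lam_nonneg hA (a := 2) (F := s.vpT k ^ 24 * s.σ ^ 2) (a' := 2) (F' := 1)
    zero_le_two (by positivity) zero_le_two zero_le_one
  refine le_trans ?_ (jump_num (k := k) (mu0_ge hI (by linarith [s.hC])))
  gcongr
  exact (norm_jump_le hn (disjoint_Qp L p) (hR.row hI hA) hA hμ E00_nonneg (cap_T hI hT hj)
    (cap_univ hI) zero_le_two (by positivity) zero_le_two zero_le_one h6.le τ).trans (by gcongr)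

/-- M6 on the schedule is a local supermartingale -/
theorem mon_locS (hI : Init s.d M s.C s.σ E w0) (hA : Adm (Aop s.d M E) w) {L N : ℕ} {p : Tor s.d M}
    {Act : Finset (Tor s.d M)} {vv : Tor s.d M → ℕ → ℝ} {Xs : Rec s.d M} {dt t ε : ℝ} (hN : 0 < N)
    (hdt : 0 ≤ dt) (hn : Nrm (E00 s.d M E w0) (Qp L p) n) (hT : Sep (2 ^ s.J (k - 1)) T)
    (hj : 2 ^ s.J (k - 1) ≤ 2 * M) (hU : UB (E00 s.d M E w0) (Aop s.d M E) w ε) (hε : ε ≤ 1)
    (hR : ∀ y ∈ Act ∩ tball p L, RowS s k E w0 w y (Qp L p) T Cr)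
    (hτ : ∀ y ∈ Act ∩ tball p L, ∀ i < N, ‖tau (Aop s.d M E) w y (vv y i)‖ ≤ 2 * s.σ)
    (hγ : ∀ y ∈ Act ∩ tball p L, s.σ ^ 2 / (10 * s.C) ≤ gam w y)
    (hβ : ∀ y ∈ Act ∩ tball p L,
      ‖avgV N fun i => tau (Aop s.d M E) w y (vv y i)‖ ≤ s.vpT k ^ 20 * gam w y) :
    LocA Act N dt (tball p L) (potM (s.Z k) (s.Z k) t 0 (mon n (s6 s k) L Xs p))
      fun ω => potM (s.Z k) (s.Z k) (t + dt) 0
        (mon n (s6 s k) L (stepX (Aop s.d M E) w vv Xs ω) p) := by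
  have hC := s.hC
  have hσ := s.σ0
  have hv := vpT_pos s k
  have hv1 := vpT_le_one s k
  have h6 := s6_pos s k
  have hμ := mu0_pos hI
  have hμ' := mu0_ge hI (by linarith)
  have hy := y1 s k
  have hZ : (s.Z k : ℝ) = (s.y k : ℝ) ^ 15 := by rw [Sch.Z]; push_cast; rfl
  have hZ0 : (0 : ℝ) < s.Z k := by rw [hZ]; positivity
  refine mon_locA (t2 := 40 * s.C) (b := s.vpT k ^ 20) (Qn := 800 * s.C ^ 6 * s.vpT k ^ 24) (ε := 1)
    hN hdt hZ0 hZ0 hn hA hμ E00_nonneg (cap_T hI hT hj) (cap_univ hI) zero_le_two (by positivity)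
    zero_le_two zero_le_one h6.le (hU.mono E00_nonneg hε) zero_le_one (by positivity)
    (by positivity) (by positivity) (by positivity) (fun y hy => (hR y hy).row hI hA) hτ
    (fun y hy => ?_) hβ (fun f _ => rS_form hI f) (jump_num hμ') ?_ ?_
  · refine (avg_mono (g := fun _ => (2 * s.σ) ^ 2) fun i hi => ?_).trans ?_
    · gcongr; exact hτ y hy i hi
    · rw [avg_const hN]
      have := hγ y hy
      rw [div_le_iff₀ (by positivity)] at this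
      nlinarith
  · rw [le_div_iff₀ (by positivity)]
    refine le_trans (le_of_eq ?_) (master s k (c := 16) (a := 0) (b := 15) (n := 16) (by norm_num)
      (by norm_num) (by norm_num) (by norm_num))
    rw [s6, hZ]; field_simp; ring
  · have h1 : qC 2 (s.vpT k ^ 24 * s.σ ^ 2) 2 1 (2000 * s.C * (s.vpT k ^ 24 * s.σ ^ 2))
        (s.vpT k ^ 24 * s.σ ^ 2) (1 / (10 * s.C)) (10 * s.C) (100 * s.C ^ 2 * s.σ ^ 2)
        (20 * s.C ^ 2 * s.vpT k ^ 24) (400 * s.C ^ 3 * (s.vpT k ^ 24 * s.σ ^ 2)) ≤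
        110000 * s.C ^ 4 * (s.vpT k ^ 24 * s.σ ^ 2) := by
      have h2 : s.C ≤ s.C ^ 4 := le_self_pow₀ hC (by norm_num)
      have h3 : 0 ≤ s.vpT k ^ 24 * s.σ ^ 2 := by positivity
      have h4 := mul_le_mul_of_nonneg_right h2 h3
      have h5 := mul_le_mul_of_nonneg_right (hC.trans h2) h3
      have e : qC 2 (s.vpT k ^ 24 * s.σ ^ 2) 2 1 (2000 * s.C * (s.vpT k ^ 24 * s.σ ^ 2))
        (s.vpT k ^ 24 * s.σ ^ 2) (1 / (10 * s.C)) (10 * s.C) (100 * s.C ^ 2 * s.σ ^ 2)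
        (20 * s.C ^ 2 * s.vpT k ^ 24) (400 * s.C ^ 3 * (s.vpT k ^ 24 * s.σ ^ 2)) =
        12010 * (s.C * (s.vpT k ^ 24 * s.σ ^ 2)) + 96000 * (s.C ^ 4 * (s.vpT k ^ 24 * s.σ ^ 2)) +
          3 * (1 * (s.vpT k ^ 24 * s.σ ^ 2)) := by unfold qC; field_simp; ring
      rw [e]; nlinarith
    rw [le_div_iff₀ (by positivity)]
    refine le_trans ?_ (master s k (c := 10 ^ 9) (a := 8) (b := 30) (n := 16) (by norm_num)
      (by norm_num) (by norm_num) (by norm_num))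
    have h2 : s.C ^ 5 ≤ s.C ^ 6 := pow_le_pow_right₀ hC (by norm_num)
    calc _ ≤ (s.Z k : ℝ) * (s6 s k ^ 2 * (2 / (s.σ ^ 2 / s.C ^ 2)) *
          (2 * (40 * s.C) * (110000 * s.C ^ 4 * (s.vpT k ^ 24 * s.σ ^ 2)) * (1 + 1) +
            8 * 2 * (2 * s.σ) ^ 2 * (800 * s.C ^ 6 * s.vpT k ^ 24))) * (4 * s.Z k) := by
          have : 0 ≤ qC 2 (s.vpT k ^ 24 * s.σ ^ 2) 2 1 (2000 * s.C * (s.vpT k ^ 24 * s.σ ^ 2))
            (s.vpT k ^ 24 * s.σ ^ 2) (1 / (10 * s.C)) (10 * s.C) (100 * s.C ^ 2 * s.σ ^ 2)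
            (20 * s.C ^ 2 * s.vpT k ^ 24) (400 * s.C ^ 3 * (s.vpT k ^ 24 * s.σ ^ 2)) := by
            unfold qC; positivity
          gcongr
      _ = 8 * (s.y k : ℝ) ^ 30 * s.vpT k ^ 16 * s.C ^ 2 * (17600000 * s.C ^ 5 + 51200 * s.C ^ 6) := by
          rw [s6, hZ]; field_simp; ring
      _ ≤ 8 * (s.y k : ℝ) ^ 30 * s.vpT k ^ 16 * s.C ^ 2 * (10 ^ 8 * s.C ^ 6) := by
          gcongr; nlinarith [pow_pos (show 0 < s.C by linarith) 6]
      _ ≤ _ := by nlinarith [show 0 ≤ (s.y k : ℝ) ^ 30 * s.vpT k ^ 16 * s.C ^ 8 by positivity]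

/-! ### gluing -/

theorem ρ_one (s : Sch) (k : ℕ) : (1 : ℝ) ≤ s.ρ k := by
  rw [Sch.ρ]; push_cast; exact one_le_pow₀ one_le_two

theorem pow_le_Big (s : Sch) (k : ℕ) {x : ℝ} (h0 : 0 ≤ x) (hx : x ≤ (s.ρ k : ℝ) ^ 4) :
    x ^ (s.d + 3) / s.σ ^ 2 ≤ s.Big k := by
  have h1 := ρ_one s k
  have hσ := s.σ0
  have hC := s.hC
  have h2 : 1 / s.σ ^ 2 ≤ s.ρ k := by
    have h3 := Sch.S2.cσ_le s k
    have h4 : (s.R0 k : ℝ) ≤ s.ρ k := by
      have := s.R0_le k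
      have := s.ρ_big k
      have : 1 ≤ s.m k := Nat.one_le_pow _ _ (s.y_pos k)
      exact_mod_cast (show s.R0 k ≤ s.ρ k by nlinarith)
    exact le_trans (by gcongr; linarith) (h3.trans h4)
  have hd := s.hd
  calc _ = x ^ (s.d + 3) * (1 / s.σ ^ 2) := by ring
    _ ≤ ((s.ρ k : ℝ) ^ 4) ^ (s.d + 3) * s.ρ k := by gcongr
    _ = (s.ρ k : ℝ) ^ (4 * (s.d + 3) + 1) := by rw [← pow_mul, ← pow_succ]
    _ ≤ _ := pow_le_pow_right₀ h1 (by omega)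

theorem C_le_y (s : Sch) (k : ℕ) : s.C ≤ s.y k := by
  have h7 := C_le s k
  have h8 : s.C ≤ s.C ^ 20 := le_self_pow₀ s.hC (by norm_num)
  linarith [s.hC]

theorem glueC_le (s : Sch) (k : ℕ) : glueC s.d s.σ s.C (s.L k) (s6 s k) 2 (s.Big k) (1 / s.ρ k) ≤
    s.vpT k ^ 3 / (4 * (s.y k : ℝ) ^ 4) := by
  have h1 := ρ_one s k
  have hC := s.hC
  have hv := vpT_pos s k
  have hv1 := vpT_le_one s k
  have hy := y1 s k
  have hL : (s.L k : ℝ) = (s.ρ k : ℝ) ^ 2 := by rw [Sch.L]; push_cast; rfl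
  have h2 : (s.C * s.L k / (1 / s.ρ k)) ^ (s.d + 3) / s.σ ^ 2 ≤ s.Big k := by
    refine pow_le_Big s k (by positivity) ?_
    have h3 : s.C ≤ s.ρ k := (C_le_y s k).trans ((le_self_pow₀ hy (by norm_num)).trans
      (Sch.S2.ρ_ge s k))
    rw [hL]
    calc _ = s.C * (s.ρ k : ℝ) ^ 3 := by field_simp
      _ ≤ s.ρ k * (s.ρ k : ℝ) ^ 3 := by gcongr
      _ = _ := by ring
  have h3 := s.Big_tail k
  have hB : 0 ≤ s.Big k := by unfold Sch.Big; positivity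
  have h4 : Real.exp (-(1 / s.ρ k) * s.L k / 2) ≤ Real.exp (-(s.ρ k : ℝ) / 8) ^ 2 := by
    rw [← Real.exp_nat_mul, hL]
    refine Real.exp_le_exp.2 ?_
    have : -(1 / (s.ρ k : ℝ)) * (s.ρ k : ℝ) ^ 2 / 2 = -(s.ρ k : ℝ) / 2 := by field_simp
    rw [this]; push_cast; linarith
  have h5 : s.tt k ≤ s.vpT k ^ 2 := (tt_le_vpT s k).trans ((mul_le_of_le_one_right (by positivity)
    (pow_le_one₀ s.σ0.le s.σ_le_one)).trans (pow_le_pow_of_le_one hv.le hv1 (by norm_num)))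
  have h6 := master s k (c := 16) (a := 1) (b := 4) (n := 1) (by norm_num) (by norm_num)
    (by norm_num) (by norm_num)
  calc _ ≤ s.C * 2 / s6 s k + 2 * s.Big k * Real.exp (-(s.ρ k : ℝ) / 8) ^ 2 * s.Big k := by
        unfold glueC; gcongr
    _ = 2 * s.C * s.vpT k ^ 4 + 2 * (s.Big k * Real.exp (-(s.ρ k : ℝ) / 8)) ^ 2 := by
        rw [s6]; field_simp
    _ ≤ 2 * s.C * s.vpT k ^ 4 + 2 * (s.vpT k ^ 2) ^ 2 := by gcongr; exact h3.trans h5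
    _ ≤ 4 * s.C * s.vpT k ^ 4 := by nlinarith [pow_pos hv 4]
    _ ≤ _ := by
        rw [le_div_iff₀ (by positivity)]
        nlinarith [mul_le_mul_of_nonneg_left h6 (pow_pos hv 3).le]

variable {wN : Tor s.d M → ℂ} {Xs : Rec s.d M} {ε : ℝ}

/-- the form error of a closing phase -/
theorem glueS (hI : Init s.d M s.C s.σ E w0) {n : Tor s.d M → Matrix (Tor s.d M) B ℝ}
    (hn : ∀ p, Nrm (E00 s.d M E w0) (Qp (s.L k) p) (n p))
    (h : Track (Aop s.d M E) wN w Xs (s.Big k) (1 / s.ρ k))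
    (hb : ∀ p, ‖mon (n p) (s6 s k) (s.L k) Xs p‖ ≤ 2) {ψ : Tor s.d M → ℝ} (hψ : Van ψ) :
    |ψ ⬝ᵥ (∑ y, Xs y) *ᵥ ψ| ≤ s.vpT k ^ 3 / (4 * (s.y k : ℝ) ^ 4) * E00 s.d M E w0 ψ := by
  obtain ⟨χ, cp, hcut⟩ := hI.cut (s.L k) (s.one_le_σL k)
  have h1 := ρ_one s k
  exact (glue h.loc hcut hn (s6_pos s k) (by unfold Sch.Big; positivity) (by positivity)
    (by rw [div_le_one (by positivity)]; exact h1) hb hψ).trans
    (mul_le_mul_of_nonneg_right (glueC_le s k) (E00_nonneg ψ))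

theorem Track.LBS (hI : Init s.d M s.C s.σ E w0) {n : Tor s.d M → Matrix (Tor s.d M) B ℝ}
    (hn : ∀ p, Nrm (E00 s.d M E w0) (Qp (s.L k) p) (n p))
    (h : Track (Aop s.d M E) wN w Xs (s.Big k) (1 / s.ρ k))
    (hb : ∀ p, ‖mon (n p) (s6 s k) (s.L k) Xs p‖ ≤ 2) (habs : ∀ a ∈ absb s.d M, gam w a ≠ 0)
    (h0 : M6.LB (E00 s.d M E w0) (Aop s.d M E) wN ε) :
    M6.LB (E00 s.d M E w0) (Aop s.d M E) w (ε + s.vpT k ^ 3 / (4 * (s.y k : ℝ) ^ 4)) :=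
  h.LB habs h0 fun _ hψ => glueS hI hn h hb hψ

theorem Track.UBS (hI : Init s.d M s.C s.σ E w0) {n : Tor s.d M → Matrix (Tor s.d M) B ℝ}
    (hn : ∀ p, Nrm (E00 s.d M E w0) (Qp (s.L k) p) (n p))
    (h : Track (Aop s.d M E) wN w Xs (s.Big k) (1 / s.ρ k))
    (hb : ∀ p, ‖mon (n p) (s6 s k) (s.L k) Xs p‖ ≤ 2)
    (h0 : M6.UB (E00 s.d M E w0) (Aop s.d M E) wN ε) :
    M6.UB (E00 s.d M E w0) (Aop s.d M E) w (ε + s.vpT k ^ 3 / (4 * (s.y k : ℝ) ^ 4)) :=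
  h.UB h0 fun _ hψ => glueS hI hn h hb hψ

/-! ### release -/

theorem relC_le (hk : 1 ≤ k) {μ n tn ov : ℝ} (hμ : s.σ ^ 2 / s.C ^ 2 ≤ μ) (hn0 : 0 ≤ n)
    (hn : n ≤ s.nB k + s.Jz k) (htn : tn ≤ Real.exp (-(s.ρ k : ℝ))) (hov0 : 0 ≤ ov)
    (hov : ov ≤ (s.y k : ℝ) ^ (20 * s.d)) :
    relC s.C μ 2 (s.FO (s.J (k + 1))) (24 * s.εR k) (18 * n + 1) tn ov
      ((s.C / s.θ' k) ^ (s.d + 3) / s.σ ^ 2) ≤ s.vpT k ^ 8 := by
  have h1 := ρ_one s k
  have hC := s.hC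
  have hσ := s.σ0
  have hv := vpT_pos s k
  have hv1 := vpT_le_one s k
  have hy := y1 s k
  have hF := s.FO_pos (s.J (k + 1))
  have hε := s.εR_pos k
  have hm : (s.m k : ℝ) = (s.y k : ℝ) ^ 8 := by rw [Sch.m]; push_cast; rfl
  have h2 : (s.C / s.θ' k) ^ (s.d + 3) / s.σ ^ 2 ≤ s.Big k := by
    have e : s.C / s.θ' k = 400 * s.C * (s.y k : ℝ) ^ 8 * s.ρ k := by
      rw [Sch.θ', hm]; field_simp
    rw [e]
    refine pow_le_Big s k (by positivity) ?_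
    have h3 : 400 * s.C * (s.y k : ℝ) ^ 8 ≤ s.ρ k := by
      refine le_trans ?_ (Sch.S2.ρ_ge s k)
      calc _ ≤ s.y k * s.y k * (s.y k : ℝ) ^ 8 := by
            gcongr; exacts [by linarith [s.yR_ge k], C_le_y s k]
        _ = (s.y k : ℝ) ^ 10 := by ring
        _ ≤ _ := pow_le_pow_right₀ hy (by norm_num)
    calc _ ≤ (s.ρ k : ℝ) * s.ρ k := by gcongr
      _ = (s.ρ k : ℝ) ^ 2 := by ring
      _ ≤ _ := pow_le_pow_right₀ h1 (by norm_num)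
  have h3 : tn * ((s.C / s.θ' k) ^ (s.d + 3) / s.σ ^ 2) ≤ s.vpT k ^ 24 := by
    have hθ : 0 < s.θ' k := by rw [Sch.θ', hm]; positivity
    calc _ ≤ Real.exp (-(s.ρ k : ℝ) / 8) * s.Big k := by
          gcongr; exact htn.trans (Real.exp_le_exp.2 (by linarith))
      _ ≤ _ := by
          rw [mul_comm]
          exact (s.Big_tail k).trans ((tt_le_vpT s k).trans (mul_le_of_le_one_right (by positivity)
            (pow_le_one₀ hσ.le s.σ_le_one)))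
  have hJ : (1 : ℝ) ≤ s.nB k + s.Jz k := by
    have : 0 ≤ s.nB k := by unfold Sch.nB; positivity
    have : (1 : ℝ) ≤ s.Jz k := by exact_mod_cast (Nat.le_add_left 1 _ : 1 ≤ s.Jz k)
    linarith
  have hlam : 1 ≤ s.lam k :=
    one_le_mul_of_one_le_of_one_le (one_le_pow₀ hy) (one_le_pow₀ (s.one_le_u k))
  have h4 : ov * (2 * (24 * s.εR k) + s.FO (s.J (k + 1)) * (18 * n + 1)) ≤
      48 * (s.vpT k ^ 24 * s.σ ^ 2) := by
    have h5 := s.rel_F k hk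
    have h6 : s.vp k ^ 24 * s.σ ^ 4 ≤ s.vpT k ^ 24 * s.σ ^ 2 := by
      have := s.vp_pos k
      gcongr ?_ * ?_
      · exact pow_le_pow_left₀ this.le (vp_le_vpT s k) _
      · exact pow_le_pow_of_le_one hσ.le s.σ_le_one (by norm_num)
    calc _ ≤ (s.y k : ℝ) ^ (20 * s.d) *
          (48 * ((s.εR k + s.FO (s.J (k + 1)) * (s.nB k + s.Jz k)) * 1)) := by
          gcongr
          nlinarith [mul_le_mul_of_nonneg_left hn hF.le, mul_le_mul_of_nonneg_left hJ hF.le]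
      _ ≤ (s.y k : ℝ) ^ (20 * s.d) *
          (48 * ((s.εR k + s.FO (s.J (k + 1)) * (s.nB k + s.Jz k)) * s.lam k ^ 2)) := by
          gcongr; exact one_le_pow₀ hlam
      _ ≤ _ := by linarith
  have h5 := master s k (c := 200) (a := 3) (b := 0) (n := 16) (by norm_num) (by norm_num)
    (by norm_num) (by norm_num)
  have h6 : (1 : ℝ) ≤ s.C ^ 3 := one_le_pow₀ hC
  calc _ = 4 * s.C * (ov * (2 * (24 * s.εR k) + s.FO (s.J (k + 1)) * (18 * n + 1))) / μ +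
        2 * (tn * ((s.C / s.θ' k) ^ (s.d + 3) / s.σ ^ 2)) := by unfold relC; ring
    _ ≤ 4 * s.C * (48 * (s.vpT k ^ 24 * s.σ ^ 2)) / (s.σ ^ 2 / s.C ^ 2) + 2 * s.vpT k ^ 24 := by gcongr
    _ = (192 * s.C ^ 3 + 2) * s.vpT k ^ 16 * s.vpT k ^ 8 := by field_simp; ring
    _ ≤ _ := mul_le_of_le_one_left (by positivity) (by nlinarith [pow_pos hv 16])

theorem θ'_pos (s : Sch) (k : ℕ) : 0 < s.θ' k ∧ s.θ' k ≤ 1 := by
  have h1 := ρ_one s k
  have h2 : (1 : ℝ) ≤ s.m k := by exact_mod_cast Nat.one_le_pow _ _ (s.y_pos k)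
  unfold Sch.θ'
  exact ⟨by positivity, by rw [div_le_one (by positivity)]; nlinarith⟩

/-- the form bounds through the release that ends epoch `k` -/
theorem RelH.LUS (hI : Init s.d M s.C s.σ E w0) (hk : 1 ≤ k) {w' : Tor s.d M → ℂ}
    {Cs S : Finset (Tor s.d M)} {Bc N : Tor s.d M → Finset (Tor s.d M)} {L : ℕ} {n tn ov : ℝ}
    (h : RelH (Aop s.d M E) w w' Cs Bc N S L (24 * s.εR k) (18 * n + 1) tn (s.θ' k) ov)
    (hL : s.L k ≤ L) (hS : Sep (2 ^ s.J (k + 1)) S) (hj : 2 ^ s.J (k + 1) ≤ 2 * M) (hn0 : 0 ≤ n)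
    (hn : n ≤ s.nB k + s.Jz k) (htn : tn ≤ Real.exp (-(s.ρ k : ℝ)))
    (hov : ov ≤ (s.y k : ℝ) ^ (20 * s.d)) (hε0 : 0 ≤ ε) (hε : ε ≤ 1) :
    (M6.LB (E00 s.d M E w0) (Aop s.d M E) w ε →
      M6.LB (E00 s.d M E w0) (Aop s.d M E) w' (ε + s.vpT k ^ 3 / 2)) ∧
    (M6.UB (E00 s.d M E w0) (Aop s.d M E) w ε →
      M6.UB (E00 s.d M E w0) (Aop s.d M E) w' (ε + s.vpT k ^ 3 / 2)) := by
  obtain ⟨χ, cp, hcut⟩ := hI.cut L ((s.one_le_σL k).trans (by gcongr))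
  have hv := vpT_pos s k
  have hv1 := vpT_le_one s k
  have hC := (cap_FO hI hS hj).mono E00_nonneg subset_rfl vp0_cube_le le_rfl
  have hP := hI.poin2 _ (θ'_pos s k).1 (θ'_pos s k).2
  have h1 := relC_le hk (mu0_ge hI (by linarith [s.hC])) hn0 hn htn
    ((Nat.cast_nonneg _).trans (h.ovl 0)) hov
  have h2 := master s k (c := 8) (a := 0) (b := 0) (n := 1) (by norm_num) (by norm_num)
    (by norm_num) (by norm_num)
  have h3 : 2 * relC s.C (mu0 s.d M E w0) 2 (s.FO (s.J (k + 1))) (24 * s.εR k) (18 * n + 1) tn ov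
      ((s.C / s.θ' k) ^ (s.d + 3) / s.σ ^ 2) / s.vpT k ^ 4 ≤ 2 * s.vpT k ^ 4 := by
    rw [div_le_iff₀ (by positivity)]; linarith
  have h4 : 8 * s.vpT k ^ 4 ≤ s.vpT k ^ 3 := by
    nlinarith [mul_le_mul_of_nonneg_left h2 (pow_pos hv 3).le]
  have h5 := pow_pos hv 4
  exact ⟨fun hL => (h.LB hL E00_nonneg hε0 hcut (mu0_pos hI) hC zero_le_two (s.FO_pos _).le
      (by positivity) hP h5 (pow_le_one₀ hv.le hv1)).mono E00_nonneg (by linarith),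
    fun hU => (h.UB hU E00_nonneg hε hcut (mu0_pos hI) hC zero_le_two (s.FO_pos _).le
      (by positivity) hP h5 (pow_le_one₀ hv.le hv1)).mono E00_nonneg (by linarith)⟩

end Crest.Agent.N334.AC.M6
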