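import Crest.Agent.N334.AC.M6.Defs
import Crest.Agent.N334.AC.L.Basic

/-!
# Row 334, S0520 (helper73): uses of the form bounds, initial state, retuning, near profile
-/

set_option autoImplicit false

open Matrix Finset

namespace Crest.Agent.N334.AC.M6

variable {d M : ℕ} [NeZero M] {E0 : (Tor d M → ℝ) → ℝ} {A : Matrix (Tor d M) (Tor d M) ℂ}
  {w w' : Tor d M → ℂ} {ε ε' μ a F δ : ℝ}

theorem LB.init (A : Matrix (Tor d M) (Tor d M) ℂ) (w : Tor d M → ℂ) : LB (En (Km A w)) A w 0 :=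
  fun f hf => ⟨f, hf, fun _ _ => rfl, by simp⟩
theorem UB.init (A : Matrix (Tor d M) (Tor d M) ℂ) (w : Tor d M → ℂ) : UB (En (Km A w)) A w 0 :=
  fun _ _ => by simp
theorem LB.mono (h : LB E0 A w ε) (hE : ∀ ψ, 0 ≤ E0 ψ) (hε : ε ≤ ε') : LB E0 A w ε' := by
  intro f hf
  obtain ⟨ψ, h1, h2, h3⟩ := h f hf
  exact ⟨ψ, h1, h2, le_trans (mul_le_mul_of_nonneg_right (by linarith) (hE ψ)) h3⟩
theorem UB.mono (h : UB E0 A w ε) (hE : ∀ ψ, 0 ≤ E0 ψ) (hε : ε ≤ ε') : UB E0 A w ε' :=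
  fun ψ hψ => (h ψ hψ).trans (mul_le_mul_of_nonneg_right (by linarith) (hE ψ))
/-- retuning (use `Jmp.gam_le`, `Jmp.le_En` with `η = 10 δ`) -/
theorem LB.jmp (h : LB E0 A w ε) (hE : ∀ ψ, 0 ≤ E0 ψ) (hε : 0 ≤ ε) {η : ℝ} (h0 : 0 ≤ η) (h1 : η ≤ 1)
    (hp : ∀ a, gam w' a ≠ 0 → gam w a ≠ 0)
    (hj : ∀ f, (1 - η) * En (Km A w) f ≤ En (Km A w') f) : LB E0 A w' (ε + η) := by
  intro f hf
  obtain ⟨ψ, h2, h3, h4⟩ := h f hf
  refine ⟨ψ, h2, fun a ha => h3 a (hp a ha), le_trans ?_ (hj f)⟩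
  have h5 := mul_le_mul_of_nonneg_left h4 (sub_nonneg.2 h1)
  have h6 := mul_nonneg (mul_nonneg hε h0) (hE ψ)
  nlinarith
/-- retuning (use `Jmp.En_le` with `η = 10 δ`) -/
theorem UB.jmp (h : UB E0 A w ε) (hE : ∀ ψ, 0 ≤ E0 ψ) (hε : ε ≤ 1) {η : ℝ} (h0 : 0 ≤ η)
    (hj : ∀ f, En (Km A w') f ≤ (1 + η) * En (Km A w) f) : UB E0 A w' (ε + 2 * η) := by
  intro ψ hψ
  have h5 := mul_le_mul_of_nonneg_left (h ψ hψ) (by linarith : 0 ≤ 1 + η)
  have h6 := mul_nonneg (mul_nonneg (sub_nonneg.2 hε) h0) (hE ψ)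
  have h7 := hj ψ
  nlinarith

theorem Cap.mono {S S' : Finset (Tor d M)} {a' F' : ℝ} (h : Cap E0 μ S a F) (hE : ∀ ψ, 0 ≤ E0 ψ)
    (hS : S' ⊆ S) (ha : a ≤ a') (hF : F ≤ F') : Cap E0 μ S' a' F' := by
  intro l ψ hl hψ
  refine (h l ψ (fun x hx => hl x fun hx' => hx (hS hx')) hψ).trans ?_
  have h1 : 0 ≤ ∑ x, l x ^ 2 := by positivity
  have h2 := hE ψ
  gcongr

/-- KEY: the lower form bound controls the conductance kernel on a capacity set -/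
theorem LB.key {S : Finset (Tor d M)} (h : LB E0 A w ε) (hA : Adm A w) (hε : ε < 1) (hμ : 0 < μ)
    (hC : Cap E0 μ S a F) (ha : 0 ≤ a) (hF : 0 ≤ F) {l : Tor d M → ℝ}
    (hl : ∀ x, l x ≠ 0 → x ∈ S ∧ x ∉ absb d M ∧ gam w x ≠ 0 ∧ mu (Km A w) x ≤ (1 + δ) * μ) :
    ∑ x, ∑ z ∈ univ.erase x, ‖Km A w x z‖ ^ 2 * (l x * l z) ≤
      μ * ((a / (1 - ε) - 1 + δ) * ∑ x, l x ^ 2 + F / (1 - ε) * (∑ x, |l x|) ^ 2) := by
  have hv : Van l := fun x hx => by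
    by_contra h0
    exact (hl x h0).2.1 hx
  obtain ⟨ψ, h1, h2, h3⟩ := h l hv
  have h4 := hC l ψ (fun x hx => by
    by_contra h0
    exact hx (hl x h0).1) h1
  have e1 : ∑ x, l x * ψ x = ∑ x, l x ^ 2 := sum_congr rfl fun x _ => by
    by_cases h0 : l x = 0
    · simp [h0]
    · rw [h2 x (hl x h0).2.2.1, sq]
  have h5 : ∑ x, mu (Km A w) x * l x ^ 2 ≤ (1 + δ) * μ * ∑ x, l x ^ 2 := by
    rw [mul_sum]
    refine sum_le_sum fun x _ => ?_
    by_cases h0 : l x = 0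
    · simp [h0]
    · exact mul_le_mul_of_nonneg_right (hl x h0).2.2.2 (sq_nonneg _)
  have h6 := hA.En_eq l
  have h7 := En_nn (Km A w) l
  rw [e1] at h4
  have hn : 0 ≤ ∑ x, l x ^ 2 := by positivity
  generalize ∑ x, l x ^ 2 = n at *
  have hm : 0 ≤ (∑ x, |l x|) ^ 2 := sq_nonneg _
  generalize (∑ x, |l x|) ^ 2 = m at *
  have hε' : 0 < 1 - ε := sub_pos.2 hε
  have hL : 0 ≤ a * n + F * m := by positivity
  obtain ⟨L, hLd⟩ : ∃ L, L = μ * (a * n + F * m) / (1 - ε) := ⟨_, rfl⟩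
  have hL0 : 0 ≤ L := by rw [hLd]; positivity
  have h8 : (μ * n) ^ 2 ≤ L * En (Km A w) l := by
    rw [hLd, div_mul_eq_mul_div, le_div_iff₀ hε']
    have h9 := mul_le_mul_of_nonneg_left h4 (mul_pos hμ hε').le
    have h10 := mul_le_mul_of_nonneg_left h3 (mul_nonneg hμ.le hL)
    nlinarith
  have h9 : 2 * (μ * n) - En (Km A w) l ≤ L := by
    rcases hL0.eq_or_lt with h0 | h0
    · rw [← h0, zero_mul] at h8
      have : μ * n = 0 := pow_eq_zero_iff two_ne_zero |>.1 (le_antisymm h8 (sq_nonneg _))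
      linarith
    · refine le_of_mul_le_mul_left ?_ h0
      nlinarith [sq_nonneg (μ * n - L)]
  have e2 : μ * ((a / (1 - ε) - 1 + δ) * n + F / (1 - ε) * m) = L + (δ - 1) * (μ * n) := by
    rw [hLd]
    field_simp
    ring
  rw [e2]
  linarith

/-- bilinear form of KEY for non-negative vectors -/
theorem LB.key2 {S : Finset (Tor d M)} (h : LB E0 A w ε) (hA : Adm A w) (hε : ε < 1) (hμ : 0 < μ)
    (hC : Cap E0 μ S a F) (ha : 0 ≤ a) (hF : 0 ≤ F) (he : 0 ≤ a / (1 - ε) - 1 + δ)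
    {l l' : Tor d M → ℝ} (h0 : ∀ x, 0 ≤ l x) (h0' : ∀ x, 0 ≤ l' x)
    (hl : ∀ x, l x ≠ 0 ∨ l' x ≠ 0 →
      x ∈ S ∧ x ∉ absb d M ∧ gam w x ≠ 0 ∧ mu (Km A w) x ≤ (1 + δ) * μ) {t : ℝ} (ht : 0 < t) :
    ∑ x, ∑ z ∈ univ.erase x, ‖Km A w x z‖ ^ 2 * (l x * l' z) ≤
      μ * ((a / (1 - ε) - 1 + δ) * (t * ∑ x, l x ^ 2 + (∑ x, l' x ^ 2) / t) +
        F / (1 - ε) * (t * (∑ x, l x) ^ 2 + (∑ x, l' x) ^ 2 / t)) := by
  have hg : ∀ x, 0 ≤ t * l x + l' x := fun x => add_nonneg (mul_nonneg ht.le (h0 x)) (h0' x)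
  have h1 := h.key (δ := δ) hA hε hμ hC ha hF (l := fun x => t * l x + l' x) fun x hx => hl x <| by
    by_contra hn
    push Not at hn
    exact hx (by simp [hn.1, hn.2])
  have e1 : ∑ x, ∑ z ∈ univ.erase x, ‖Km A w x z‖ ^ 2 * (l' x * l z) =
      ∑ x, ∑ z ∈ univ.erase x, ‖Km A w x z‖ ^ 2 * (l x * l' z) := by
    rw [sum_comm' (t' := univ) (s' := fun z => univ.erase z) (by simp [ne_comm])]
    exact sum_congr rfl fun x _ => sum_congr rfl fun z _ => by rw [hA.K_sym, mul_comm (l x)]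
  have h2 : 2 * t * ∑ x, ∑ z ∈ univ.erase x, ‖Km A w x z‖ ^ 2 * (l x * l' z) ≤
      ∑ x, ∑ z ∈ univ.erase x, ‖Km A w x z‖ ^ 2 * ((t * l x + l' x) * (t * l z + l' z)) := by
    rw [two_mul, add_mul]
    nth_rw 2 [← e1]
    rw [← mul_add, ← sum_add_distrib, mul_sum]
    refine sum_le_sum fun x _ => ?_
    rw [← sum_add_distrib, mul_sum]
    refine sum_le_sum fun z _ => ?_
    have h3 := mul_nonneg (sq_nonneg ‖Km A w x z‖) (add_nonneg
      (mul_nonneg (sq_nonneg t) (mul_nonneg (h0 x) (h0 z))) (mul_nonneg (h0' x) (h0' z)))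
    nlinarith
  have h3 : ∑ x, (t * l x + l' x) ^ 2 ≤ 2 * t * (t * ∑ x, l x ^ 2 + (∑ x, l' x ^ 2) / t) := by
    have : 2 * t * (t * ∑ x, l x ^ 2 + (∑ x, l' x ^ 2) / t) =
        ∑ x, (2 * t ^ 2 * l x ^ 2 + 2 * l' x ^ 2) := by
      rw [sum_add_distrib, ← mul_sum, ← mul_sum]
      field_simp
    rw [this]
    exact sum_le_sum fun x _ => by nlinarith [sq_nonneg (t * l x - l' x)]
  have h4 : (∑ x, |t * l x + l' x|) ^ 2 ≤ 2 * t * (t * (∑ x, l x) ^ 2 + (∑ x, l' x) ^ 2 / t) := by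
    rw [sum_congr rfl fun x _ => abs_of_nonneg (hg x), sum_add_distrib, ← mul_sum]
    have : 2 * t * (t * (∑ x, l x) ^ 2 + (∑ x, l' x) ^ 2 / t) =
        2 * t ^ 2 * (∑ x, l x) ^ 2 + 2 * (∑ x, l' x) ^ 2 := by field_simp
    rw [this]
    nlinarith [sq_nonneg (t * ∑ x, l x - ∑ x, l' x)]
  have hF' : 0 ≤ F / (1 - ε) := div_nonneg hF (sub_pos.2 hε).le
  refine le_of_mul_le_mul_left ((h2.trans h1).trans ?_) (by positivity : 0 < 2 * t)
  calc _ ≤ μ * ((a / (1 - ε) - 1 + δ) * (2 * t * (t * ∑ x, l x ^ 2 + (∑ x, l' x ^ 2) / t)) +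
        F / (1 - ε) * (2 * t * (t * (∑ x, l x) ^ 2 + (∑ x, l' x) ^ 2 / t))) := by gcongr
    _ = _ := by ring

/-- the last open core port conducts to the absorber -/
theorem LB.final {S : Finset (Tor d M)} (h : LB E0 A w ε) (hA : Adm A w) (hε : ε ≤ 1)
    (hC : Cap E0 μ S a F) (haF : 0 < a + F) {x : Tor d M} (hS : x ∈ S) (hx : x ∉ absb d M)
    (hγ : gam w x ≠ 0) (hp : ∀ b, b ≠ x → gam w b ≠ 0 → b ∈ absb d M) :
    μ * (1 - ε) / (a + F) ≤ ∑ b ∈ absb d M, ‖Km A w x b‖ ^ 2 := by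
  have hv : Van (Pi.single x (1 : ℝ) : Tor d M → ℝ) := fun y hy =>
    Pi.single_eq_of_ne (fun e => hx (by rwa [← e])) _
  obtain ⟨ψ, h1, h2, h3⟩ := h _ hv
  have h4 := hC (Pi.single x 1) ψ (fun y hy => Pi.single_eq_of_ne (fun e => hy (by rwa [e])) _) h1
  have h5 : ψ x = 1 := by rw [h2 x hγ, Pi.single_eq_same]
  have e1 : En (Km A w) (Pi.single x 1) = mu (Km A w) x := by
    rw [hA.En_eq, sum_eq_single x (fun b _ hb => by simp [hb]) (by simp), sum_eq_zero]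
    · simp
    · intro b _
      refine sum_eq_zero fun c hc => ?_
      by_cases hb : b = x
      · subst hb
        simp [ne_of_mem_erase hc]
      · simp [hb]
  have h6 : mu (Km A w) x ≤ ∑ b ∈ absb d M, ‖Km A w x b‖ ^ 2 := by
    rw [mu, ← sum_filter_of_ne (p := fun b => b ∈ absb d M)]
    · exact sum_le_sum_of_subset_of_nonneg (fun b hb => (mem_filter.1 hb).2)
        fun _ _ _ => sq_nonneg _
    · intro b hb h0
      refine hp b (ne_of_mem_erase hb) fun hg => h0 ?_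
      simp [Km, hg]
  have e2 : ∑ y, (Pi.single x (1 : ℝ) : Tor d M → ℝ) y * ψ y = 1 := by
    rw [sum_eq_single x (fun b _ hb => by simp [hb]) (by simp)]
    simp [h5]
  have e3 : ∑ y, (Pi.single x (1 : ℝ) : Tor d M → ℝ) y ^ 2 = 1 := by
    rw [sum_eq_single x (fun b _ hb => by simp [hb]) (by simp)]
    simp
  have e4 : ∑ y, |(Pi.single x (1 : ℝ) : Tor d M → ℝ) y| = 1 := by
    rw [sum_eq_single x (fun b _ hb => by simp [hb]) (by simp)]
    simp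
  rw [e2, e3, e4] at h4
  rw [e1] at h3
  rw [div_le_iff₀ haF]
  have h7 := mul_le_mul_of_nonneg_left h4 (sub_nonneg.2 hε)
  have h8 := mul_le_mul_of_nonneg_left (h3.trans h6) haF.le
  nlinarith

section Ini

variable {C σ E : ℝ} {w0 : ℂ}

/-- the free energy -/
noncomputable abbrev E00 (d M : ℕ) [NeZero M] (E : ℝ) (w0 : ℂ) : (Tor d M → ℝ) → ℝ :=
  En (Km (Aop d M E) fun _ => w0)

/-- `μ₀` -/
noncomputable abbrev mu0 (d M : ℕ) [NeZero M] (E : ℝ) (w0 : ℂ) : ℝ :=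
  -w0.im * (Gm (Aop d M E) (fun _ => w0) (0 : Tor d M) 0).im

theorem cap_one (h : Init d M C σ E w0) {e : ℝ} (he : 0 < e) (he1 : e ≤ 1) :
    Cap (E00 d M E w0) (mu0 d M E w0) univ (1 + e) (C * σ ^ 3 / e) :=
  fun l ψ _ hψ => h.cap1 e he he1 l ψ hψ

theorem cap_two (h : Init d M C σ E w0) {R : ℕ} {F : ℝ} (hR : R ≤ 2 * M) (hF : 0 < F)
    (hC : C ≤ σ ^ 40 * R * F ^ 4) {S : Finset (Tor d M)} (hS : Sep R S) :
    Cap (E00 d M E w0) (mu0 d M E w0) S (1 + C * σ ^ 2) F :=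
  fun l ψ hl hψ => h.cap2 R F hR hF hC S l ψ hS hl hψ

theorem mu0_ge (h : Init d M C σ E w0) (hC : 0 < C) : σ ^ 2 / C ^ 2 ≤ mu0 d M E w0 := by
  have h0 : 0 ≤ σ ^ 2 / C := by positivity
  calc σ ^ 2 / C ^ 2 = σ ^ 2 / C * (1 / C) := by field_simp
    _ ≤ _ := mul_le_mul h.gam_lo h.im_lo (by positivity) (h0.trans h.gam_lo)

theorem exists_Nrm (h : Init d M C σ E w0) (hC : 0 < C) (hσ : 0 < σ) (L : ℕ) (B : Type) [Fintype B]
    (hB : vol d M (3 * L) ≤ Fintype.card B) :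
    ∃ n : Tor d M → Matrix (Tor d M) B ℝ, ∀ p, Nrm (E00 d M E w0) (Qp L p) (n p) := by
  have hμ : 0 < mu0 d M E w0 := lt_of_lt_of_le (by positivity) (mu0_ge h hC)
  have key : ∀ p, ∃ n : Matrix (Tor d M) B ℝ, Nrm (E00 d M E w0) (Qp L p) n := by
    intro p
    obtain ⟨n, h1, h2⟩ := exists_nrm (Km (Aop d M E) fun _ => w0) (Qp L p) B (by
      have h1 : ((Qp L p).card : ℝ) ≤ (tball p (3 * L)).card := by
        exact_mod_cast card_le_card sdiff_subset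
      rw [card_tball] at h1
      exact_mod_cast h1.trans hB) fun φ hφ h0 => by
        funext x
        have h1 := h.cap1 1 one_pos le_rfl (Pi.single x 1) φ
          fun y hy => hφ y fun hq => (mem_sdiff.1 hq).2 hy
        rw [h0, mul_zero, sum_eq_single x (fun b _ hb => by simp [hb]) (by simp),
          Pi.single_eq_same, one_mul] at h1
        have h2 : φ x ^ 2 ≤ 0 := le_of_mul_le_mul_left (h1.trans_eq (mul_zero _).symm) hμ
        exact pow_eq_zero_iff two_ne_zero |>.1 (le_antisymm h2 (sq_nonneg _))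
    exact ⟨n, h1, h2⟩
  choose n hn using key
  exact ⟨n, hn⟩

/-- near profile of the first epochs -/
noncomputable def near (d M : ℕ) [NeZero M] (E : ℝ) (w0 : ℂ) (g t : ℝ) (y b : Tor d M) : ℝ :=
  if t < ‖Gm (Aop d M E) (fun _ => w0) b y‖ ^ 2 then 2 * g * ‖Gm (Aop d M E) (fun _ => w0) b y‖ ^ 2
  else 0

theorem near_nonneg {g t : ℝ} (hg : 0 ≤ g) (y b : Tor d M) : 0 ≤ near d M E w0 g t y b := by
  unfold near
  split_ifs
  · positivity
  · exact le_rfl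

theorem le_near {g t x γ : ℝ} {z : ℂ} {y b : Tor d M} (hγ0 : 0 ≤ γ) (hγ : γ ≤ g) (ht : 0 ≤ t)
    (hz : ‖z - Gm (Aop d M E) (fun _ => w0) b y‖ ^ 2 ≤ x) :
    γ * ‖z‖ ^ 2 ≤ 2 * g * (x + t) + near d M E w0 g t y b := by
  unfold near
  generalize Gm (Aop d M E) (fun _ => w0) b y = G at *
  have h1 : ‖z‖ ≤ ‖z - G‖ + ‖G‖ := by simpa using norm_add_le (z - G) G
  have h2 : ‖z‖ ^ 2 ≤ 2 * x + 2 * ‖G‖ ^ 2 := by
    have h3 := pow_le_pow_left₀ (norm_nonneg z) h1 2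
    nlinarith [sq_nonneg (‖z - G‖ - ‖G‖)]
  have hg : 0 ≤ g := hγ0.trans hγ
  have h3 : γ * ‖z‖ ^ 2 ≤ g * (2 * x + 2 * ‖G‖ ^ 2) := mul_le_mul hγ h2 (sq_nonneg _) hg
  split_ifs with h4
  · nlinarith [mul_nonneg hg ht]
  · nlinarith [mul_le_mul_of_nonneg_left (not_lt.1 h4) hg]

theorem Ky.four (h : Init d M C σ E w0) (y : Tor d M) :
    ∑ b, ‖Gm (Aop d M E) (fun _ => w0) b y‖ ^ 4 ≤ C / σ := by
  refine le_trans (le_of_eq ?_) h.four
  exact Fintype.sum_equiv (Equiv.subRight y) _ _ fun b => by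
    rw [h.transl b y, Equiv.subRight_apply]

theorem sum_near_le (h : Init d M C σ E w0) {g t : ℝ} (hg : 0 ≤ g) (ht : 0 < t) (y : Tor d M) :
    ∑ b, near d M E w0 g t y b ≤ 2 * g * (C / σ) / t := by
  refine le_trans (sum_le_sum (g := fun b => 2 * g / t * ‖Gm (Aop d M E) (fun _ => w0) b y‖ ^ 4)
    fun b _ => ?_) ?_
  · unfold near
    split_ifs with h4
    · rw [div_mul_eq_mul_div, le_div_iff₀ ht]
      have := mul_le_mul_of_nonneg_left h4.le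
        (by positivity : 0 ≤ 2 * g * ‖Gm (Aop d M E) (fun _ => w0) b y‖ ^ 2)
      nlinarith
    · positivity
  · rw [← mul_sum]
    calc _ ≤ 2 * g / t * (C / σ) := mul_le_mul_of_nonneg_left (Ky.four h y) (by positivity)
      _ = _ := by ring

theorem sum_near_sq_le (h : Init d M C σ E w0) {g t : ℝ} (y : Tor d M) :
    ∑ b, near d M E w0 g t y b ^ 2 ≤ 4 * g ^ 2 * (C / σ) := by
  refine le_trans (sum_le_sum (g := fun b => 4 * g ^ 2 * ‖Gm (Aop d M E) (fun _ => w0) b y‖ ^ 4)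
    fun b _ => ?_) ?_
  · unfold near
    split_ifs with h4
    · exact le_of_eq (by ring)
    · rw [sq, mul_zero]
      positivity
  · rw [← mul_sum]
    exact mul_le_mul_of_nonneg_left (Ky.four h y) (by positivity)

theorem near_form_le (h : Init d M C σ E w0) (hC : 0 < C) (hσ : 0 < σ) {g t : ℝ} (ht : 0 < t)
    (f : Tor d M → ℝ) : ∑ y, ∑ x, near d M E w0 g t y x ^ 2 * (f x - f y) ^ 2 ≤
      4 * g ^ 2 * (C / σ) * (C * (1 + (C / 2 * Real.log (C ^ 2 / (σ ^ 4 * t))) ^ 2) / σ ^ 2) *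
        E00 d M E w0 f := by
  have hE := En_nn (Km (Aop d M E) fun _ => w0) f
  have e1 : ∀ y u : Tor d M, near d M E w0 g t y (y + u) = near d M E w0 g t 0 u := fun y u => by
    unfold near
    rw [h.transl (y + u) y, add_sub_cancel_left]
  have e2 : ∑ y, ∑ x, near d M E w0 g t y x ^ 2 * (f x - f y) ^ 2 =
      ∑ u, near d M E w0 g t 0 u ^ 2 * ∑ y, (f (y + u) - f y) ^ 2 := by
    simp only [mul_sum]
    rw [sum_comm (s := univ) (t := univ)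
      (f := fun u y => near d M E w0 g t 0 u ^ 2 * (f (y + u) - f y) ^ 2)]
    refine sum_congr rfl fun y _ => ?_
    rw [← Equiv.sum_comp (Equiv.addLeft y)]
    exact sum_congr rfl fun u _ => by rw [Equiv.coe_addLeft, e1]
  obtain ⟨c, hc⟩ : ∃ c, c = C * (1 + (C / 2 * Real.log (C ^ 2 / (σ ^ 4 * t))) ^ 2) / σ ^ 2 *
    E00 d M E w0 f := ⟨_, rfl⟩
  have hc0 : 0 ≤ c := by rw [hc]; positivity
  rw [e2, mul_assoc, ← hc]
  refine le_trans (sum_le_sum (g := fun u => near d M E w0 g t 0 u ^ 2 * c) fun u _ => ?_) ?_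
  · by_cases h4 : t < ‖Gm (Aop d M E) (fun _ => w0) u 0‖ ^ 2
    · refine mul_le_mul_of_nonneg_left ((h.poin f u).trans ?_) (sq_nonneg _)
      have h5 := h4.trans_le (pow_le_pow_left₀ (norm_nonneg _) (h.decay u 0) 2)
      have h6 : σ ^ 2 * tdist u 0 ≤ C / 2 * Real.log (C ^ 2 / (σ ^ 4 * t)) := by
        have h7 : 2 * (σ ^ 2 / C * tdist u 0) ≤ Real.log (C ^ 2 / (σ ^ 4 * t)) := by
          rw [Real.le_log_iff_exp_le (by positivity), le_div_iff₀ (by positivity), two_mul,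
            Real.exp_add]
          rw [neg_mul, Real.exp_neg, ← div_eq_mul_inv, div_pow, div_pow,
            lt_div_iff₀ (by positivity), lt_div_iff₀ (by positivity)] at h5
          nlinarith
        calc σ ^ 2 * tdist u 0 = C / 2 * (2 * (σ ^ 2 / C * tdist u 0)) := by field_simp
          _ ≤ _ := mul_le_mul_of_nonneg_left h7 (by positivity)
      rw [hc]
      gcongr
    · simp [near, h4]
  · rw [← sum_mul]
    exact mul_le_mul_of_nonneg_right (sum_near_sq_le h 0) hc0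

end Ini

end Crest.Agent.N334.AC.M6
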