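import Crest.Agent.N334.AC.M6.QV

/-!
# Row 334, S0520 (helper73): the monitor M6
-/

set_option autoImplicit false
set_option linter.unusedSectionVars false

open Matrix Finset
open scoped Matrix.Norms.L2Operator

namespace Crest.Agent.N334.AC.M6

variable {d M : ℕ} [NeZero M] {E0 : (Tor d M → ℝ) → ℝ} {A : Matrix (Tor d M) (Tor d M) ℂ}
  {w : Tor d M → ℂ} {B : Type} [Fintype B] [DecidableEq B] {n : Matrix (Tor d M) B ℝ}

theorem nsq_re_im (v : B → ℂ) : nsq v = ∑ i, (v i).re ^ 2 + ∑ i, (v i).im ^ 2 := by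
  simp only [nsq, Complex.sq_norm, Complex.normSq_apply, sum_add_distrib]
  simp only [sq]

theorem nsq_real (J : Matrix B B ℝ) (v : B → ℂ) : nsq (J.map Complex.ofReal *ᵥ v) =
    ∑ i, (J *ᵥ fun j => (v j).re) i ^ 2 + ∑ i, (J *ᵥ fun j => (v j).im) i ^ 2 := by
  rw [nsq_re_im]
  simp [mulVec, dotProduct, Complex.re_sum, Complex.im_sum]

theorem sq_le_of_dual {x : B → ℝ} {c : ℝ} (hc : 0 ≤ c) (h : ∀ u, (u ⬝ᵥ x) ^ 2 ≤ c * ∑ i, u i ^ 2) :
    ∑ i, x i ^ 2 ≤ c := by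
  have h1 := h x
  have e : x ⬝ᵥ x = ∑ i, x i ^ 2 := by simp [dotProduct, sq]
  rw [e] at h1
  rcases (show 0 ≤ ∑ i, x i ^ 2 by positivity).eq_or_lt with h0 | h0
  · rwa [← h0]
  · nlinarith

theorem nrm_form (s : ℝ) (X : Matrix (Tor d M) (Tor d M) ℝ) (u z : B → ℝ) :
    u ⬝ᵥ (s • (nᵀ * X * n)) *ᵥ z = s * ((n *ᵥ u) ⬝ᵥ X *ᵥ (n *ᵥ z)) := by
  rw [smul_mulVec, dotProduct_smul, smul_eq_mul, ← mulVec_mulVec, ← mulVec_mulVec,
    dotProduct_mulVec u, vecMul_transpose]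

theorem nrm_sq_le {Q : Finset (Tor d M)} (hn : Nrm E0 Q n) (s : ℝ) {X : Matrix (Tor d M) (Tor d M) ℝ}
    {z : B → ℝ} {c : ℝ} (hc : 0 ≤ c)
    (h : ∀ g, Supp g Q → (g ⬝ᵥ X *ᵥ (n *ᵥ z)) ^ 2 ≤ c * E0 g) :
    ∑ i, ((s • (nᵀ * X * n)) *ᵥ z) i ^ 2 ≤ s ^ 2 * c := by
  refine sq_le_of_dual (by positivity) fun u => ?_
  rw [nrm_form, mul_pow, mul_assoc]
  gcongr
  exact (h _ (hn.le u).1).trans (by gcongr; exact (hn.le u).2)

theorem norm_nrmM_le {Q : Finset (Tor d M)} (hn : Nrm E0 Q n) (hE : ∀ ψ, 0 ≤ E0 ψ) {s : ℝ} (hs : 0 ≤ s)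
    {X : Matrix (Tor d M) (Tor d M) ℝ} {c : ℝ} (hc : 0 ≤ c)
    (h : ∀ f g, Supp f Q → Supp g Q → (g ⬝ᵥ X *ᵥ f) ^ 2 ≤ c ^ 2 * (E0 g * E0 f)) :
    ‖nrmM n s X‖ ≤ s * c := by
  refine (bd_iff_norm (by positivity)).1 fun v => ?_
  have h1 : ∀ z : B → ℝ, ∑ i, ((s • (nᵀ * X * n)) *ᵥ z) i ^ 2 ≤ s ^ 2 * (c ^ 2 * ∑ i, z i ^ 2) :=
    fun z => nrm_sq_le hn s (by positivity) fun g hg => (h _ g (hn.le z).1 hg).trans (by
      have := hE g
      calc _ ≤ c ^ 2 * (E0 g * ∑ i, z i ^ 2) := by gcongr; exact (hn.le z).2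
        _ = _ := by ring)
  rw [nrmM, nsq_real, nsq_re_im v]
  have := h1 fun j => (v j).re
  have := h1 fun j => (v j).im
  nlinarith

/-- `nrmM` is linear -/
noncomputable def nrmL (n : Matrix (Tor d M) B ℝ) (s : ℝ) :
    Matrix (Tor d M) (Tor d M) ℝ →ₗ[ℝ] Matrix B B ℂ where
  toFun := nrmM n s
  map_add' X Y := by ext i j; simp [nrmM, Matrix.mul_add, Matrix.add_mul]
  map_smul' c X := by ext i j; simp [nrmM]; ring

/-- `XM` is linear in `τ` -/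
noncomputable def XL (A : Matrix (Tor d M) (Tor d M) ℂ) (w : Tor d M → ℂ) (y : Tor d M) :
    ℂ →ₗ[ℝ] Matrix (Tor d M) (Tor d M) ℝ where
  toFun := XM A w y
  map_add' := XM_add
  map_smul' c τ := XM_smul c τ

theorem nrmM_herm (s : ℝ) {X : Matrix (Tor d M) (Tor d M) ℝ} (h : X.IsSymm) :
    (nrmM n s X)ᴴ = nrmM n s X := by
  have : (s • (nᵀ * X * n))ᵀ = s • (nᵀ * X * n) := by
    rw [transpose_smul, transpose_mul, transpose_mul, transpose_transpose, h.eq, Matrix.mul_assoc]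
  ext i j
  rw [conjTranspose_apply, nrmM, map_apply, map_apply, ← congrFun (congrFun this i) j]
  simp

theorem mon_zero (s : ℝ) (L : ℕ) (p : Tor d M) : mon n s L (0 : Rec d M) p = 0 := by
  simp [mon, nrmM]

theorem mon_addX (s : ℝ) (L : ℕ) (p y : Tor d M) (Xs : Rec d M) (v : ℝ) :
    mon n s L (addX A w Xs y v) p = mon n s L Xs p +
      if y ∈ tball p L then nrmM n s (XM A w y (tau A w y v)) else 0 := by
  simp only [mon, addX, sum_add_distrib, sum_ite_eq']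
  refine ((nrmL n s).map_add _ _).trans ?_
  congr 1
  split_ifs
  · rfl
  · exact (nrmL n s).map_zero

theorem mon_addX_of_not_mem {s : ℝ} {L : ℕ} {p y : Tor d M} (hy : y ∉ tball p L) (Xs : Rec d M) (v : ℝ) :
    mon n s L (addX A w Xs y v) p = mon n s L Xs p := by rw [mon_addX, if_neg hy, add_zero]

theorem mon_addX_of_mem {s : ℝ} {L : ℕ} {p y : Tor d M} (hy : y ∈ tball p L) (Xs : Rec d M) (v : ℝ) :
    mon n s L (addX A w Xs y v) p = mon n s L Xs p + nrmM n s (XM A w y (tau A w y v)) := by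
  rw [mon_addX, if_pos hy]

theorem van_of_supp {Q : Finset (Tor d M)} (hQ : Disjoint Q (absb d M)) {f : Tor d M → ℝ}
    (hf : Supp f Q) : Van f := fun x hx => hf x (disjoint_right.1 hQ hx)

theorem disjoint_Qp (L : ℕ) (p : Tor d M) : Disjoint (Qp L p) (absb d M) := sdiff_disjoint

/-- size of one jump -/
theorem norm_jump_le {Q T Cr : Finset (Tor d M)} {y : Tor d M} {r : Tor d M → ℝ}
    {μ a F a' F' h h1 m ι0 ι1 κ m1 m2 s : ℝ} (hn : Nrm E0 Q n) (hQ : Disjoint Q (absb d M))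
    (hR : Row A w y Q T Cr r h h1 m ι0 ι1 κ m1 m2) (hA : Adm A w) (hμ : 0 < μ)
    (hE : ∀ ψ, 0 ≤ E0 ψ) (hT : Cap E0 μ T a F) (hC : Cap E0 μ univ a' F') (ha : 0 ≤ a) (hF : 0 ≤ F)
    (ha' : 0 ≤ a') (hF' : 0 ≤ F') (hs : 0 ≤ s) (τ : ℂ) :
    ‖nrmM n s (XM A w y τ)‖ ≤ s * ‖τ‖ * lamC a F a' F' h1 m ι1 / μ := by
  have hl := hR.lam_nonneg hA ha hF ha' hF'
  have k1 : ∀ f, Supp f Q → star2 A w y f 0 ≤ lamC a F a' F' h1 m ι1 / μ * E0 f := fun f hf => by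
    rw [div_mul_eq_mul_div, le_div_iff₀ hμ, mul_comm]
    exact hR.lev hA hμ hE hT hC ha hF ha' hF' hf (van_of_supp hQ hf)
  rw [mul_assoc, mul_div_assoc, mul_div_assoc]
  refine norm_nrmM_le hn hE hs (by positivity) fun f g hf hg => (XM_sq_le hA τ g f 0 0).trans ?_
  have := star2_nonneg (A := A) (w := w) (y := y) f 0
  have := hE g
  calc _ ≤ ‖τ‖ ^ 2 * ((lamC a F a' F' h1 m ι1 / μ * E0 g) * (lamC a F a' F' h1 m ι1 / μ * E0 f)) := by
        gcongr; exacts [k1 g hg, k1 f hf]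
    _ = _ := by ring

/-- M6 is a local supermartingale for the lazy step -/
theorem mon_locA {Act T Cr : Finset (Tor d M)} {N L : ℕ} {p : Tor d M} {vv : Tor d M → ℕ → ℝ}
    {r : Tor d M → Tor d M → ℝ} {Xs : Rec d M}
    {μ a F a' F' h h1 m ι0 ι1 κ m1 m2 s dt Z Tt t ε τ1 t2 b Qn : ℝ}
    (hN : 0 < N) (hdt : 0 ≤ dt) (hZ : 0 < Z) (hTt : 0 < Tt)
    (hn : Nrm E0 (Qp L p) n) (hA : Adm A w) (hμ : 0 < μ) (hE : ∀ ψ, 0 ≤ E0 ψ)
    (hT : Cap E0 μ T a F) (hC : Cap E0 μ univ a' F') (ha : 0 ≤ a) (hF : 0 ≤ F) (ha' : 0 ≤ a')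
    (hF' : 0 ≤ F') (hs : 0 ≤ s) (hU : UB E0 A w ε) (hε : 0 ≤ ε) (hb : 0 ≤ b) (ht2 : 0 ≤ t2)
    (hτ1 : 0 ≤ τ1) (hQn : 0 ≤ Qn)
    (hR : ∀ y ∈ Act ∩ tball p L, Row A w y (Qp L p) T Cr (r y) h h1 m ι0 ι1 κ m1 m2)
    (hτ : ∀ y ∈ Act ∩ tball p L, ∀ k < N, ‖tau A w y (vv y k)‖ ≤ τ1)
    (hτ2 : ∀ y ∈ Act ∩ tball p L, avg N (fun k => ‖tau A w y (vv y k)‖ ^ 2) ≤ t2 * gam w y)
    (hβ : ∀ y ∈ Act ∩ tball p L, ‖avgV N fun k => tau A w y (vv y k)‖ ≤ b * gam w y)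
    (hr : ∀ f, Van f → ∑ y, ∑ x, r y x ^ 2 * (f x - f y) ^ 2 ≤ Qn * E0 f)
    (hJ : Z * (s * τ1 * lamC a F a' F' h1 m ι1 / μ) ≤ 1)
    (hD : s * (2 * b * (1 + ε)) ≤ 1 / (4 * Tt))
    (hV : Z * (s ^ 2 * (2 / μ) * (2 * t2 * qC a F a' F' h m ι0 ι1 κ m1 m2 * (1 + ε) +
      8 * a * τ1 ^ 2 * Qn)) ≤ 1 / (4 * Tt)) :
    LocA Act N dt (tball p L) (potM Z Tt t 0 (mon n s L Xs p))
      fun ω => potM Z Tt (t + dt) 0 (mon n s L (stepX A w vv Xs ω) p) := by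
  have hQ := disjoint_Qp L p
  set J : Tor d M → ℕ → Matrix B B ℂ := fun y k => nrmM n s (XM A w y (tau A w y (vv y k))) with hJ'
  have e : (fun ω => potM Z Tt (t + dt) 0 (mon n s L (stepX A w vv Xs ω) p)) =
      fun ω => potM Z Tt (t + dt) 0 (accUp (tball p L) (mon n s L Xs p) 0 J ω) := by
    funext ω
    rcases ω with _ | ⟨y, k⟩
    · simp [stepX, accUp]
    · simp [stepX, accUp, mon_addX, hJ']
  have hEn : ∀ f, Supp f (Qp L p) → En (Km A w) f ≤ (1 + ε) * E0 f := fun f hf =>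
    hU f (van_of_supp hQ hf)
  have hqv : ∀ v : B → ℂ, Z * ∑ y ∈ Act ∩ tball p L, avg N (fun k => nsq (J y k *ᵥ v)) ≤
      1 / (4 * Tt) * nsq v := by
    intro v
    set q := qC a F a' F' h m ι0 ι1 κ m1 m2 with hq
    set Φ : Tor d M → (B → ℝ) → ℝ := fun y z => t2 * q * (gam w y * star2 A w y (n *ᵥ z) ((n *ᵥ z) y)) +
      8 * a * τ1 ^ 2 * ∑ x, r y x ^ 2 * ((n *ᵥ z) x - (n *ᵥ z) y) ^ 2 with hΦ
    have h1 : ∀ y ∈ Act ∩ tball p L, ∀ z : B → ℝ, avg N (fun k =>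
        ∑ i, ((s • (nᵀ * XM A w y (tau A w y (vv y k)) * n)) *ᵥ z) i ^ 2) ≤
          s ^ 2 * (2 / μ) * Φ y z := by
      intro y hy z
      have hq0 : 0 ≤ q := (hR y hy).q_nonneg hA ha hF ha' hF'
      have hW := star2_nonneg (A := A) (w := w) (y := y) (n *ᵥ z) ((n *ᵥ z) y)
      set W := star2 A w y (n *ᵥ z) ((n *ᵥ z) y) with hW'
      set R := ∑ x, r y x ^ 2 * ((n *ᵥ z) x - (n *ᵥ z) y) ^ 2 with hR'
      have hR0 : 0 ≤ R := by positivity
      calc _ ≤ avg N fun k => s ^ 2 * (2 / μ) * (q * W) * ‖tau A w y (vv y k)‖ ^ 2 +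
            s ^ 2 * (2 / μ) * (8 * a * τ1 ^ 2 * R) := by
            refine avg_mono fun k hk => ?_
            refine (nrm_sq_le hn s (c := 2 / μ * (‖tau A w y (vv y k)‖ ^ 2 * (q * W + 8 * a * R)))
              (by positivity) fun g hg => ?_).trans ?_
            · have := (hR y hy).qv hA hμ hE hT hC ha hF ha' hF' (tau A w y (vv y k)) (n *ᵥ z) hg
                (van_of_supp hQ hg)
              rw [form_comm (XM_isSymm hA _)]
              refine le_of_mul_le_mul_left (this.trans (le_of_eq ?_)) hμ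
              rw [← hq, ← hW', ← hR']; field_simp
            · have h2 : ‖tau A w y (vv y k)‖ ^ 2 ≤ τ1 ^ 2 := by gcongr; exact hτ y hy k hk
              have h3 := mul_le_mul_of_nonneg_left h2
                (show 0 ≤ s ^ 2 * (2 / μ) * (8 * a * R) by positivity)
              nlinarith
        _ ≤ s ^ 2 * (2 / μ) * (q * W) * (t2 * gam w y) + s ^ 2 * (2 / μ) * (8 * a * τ1 ^ 2 * R) := by
            rw [avg_add, avg_mul, avg_const hN]
            gcongr; exact hτ2 y hy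
        _ = _ := by simp only [hΦ]; ring
    have h2 : ∀ z : B → ℝ, ∑ y ∈ Act ∩ tball p L, Φ y z ≤
        (2 * t2 * q * (1 + ε) + 8 * a * τ1 ^ 2 * Qn) * ∑ i, z i ^ 2 ∨ Act ∩ tball p L = ∅ := by
      intro z
      rcases (Act ∩ tball p L).eq_empty_or_nonempty with h0 | ⟨y, hy⟩
      · exact Or.inr h0
      left
      have hq0 : 0 ≤ q := (hR y hy).q_nonneg hA ha hF ha' hF'
      have h3 := (sum_star2_le hA (Act ∩ tball p L) (n *ᵥ z)).trans
        (mul_le_mul_of_nonneg_left (hEn _ (hn.le z).1) zero_le_two)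
      have h4 : ∑ y ∈ Act ∩ tball p L, ∑ x, r y x ^ 2 * ((n *ᵥ z) x - (n *ᵥ z) y) ^ 2 ≤
          Qn * E0 (n *ᵥ z) := le_trans
        (sum_le_sum_of_subset_of_nonneg (subset_univ _) fun _ _ _ => by positivity)
        (hr _ (van_of_supp hQ (hn.le z).1))
      simp only [hΦ, sum_add_distrib, ← mul_sum]
      calc _ ≤ t2 * q * (2 * ((1 + ε) * ∑ i, z i ^ 2)) + 8 * a * τ1 ^ 2 * (Qn * ∑ i, z i ^ 2) := by
            gcongr
            · exact h3.trans (by gcongr; exact (hn.le z).2)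
            · exact h4.trans (by gcongr; exact (hn.le z).2)
        _ = _ := by ring
    rcases (Act ∩ tball p L).eq_empty_or_nonempty with h0 | hne
    · rw [h0, sum_empty, mul_zero]; have := nsq_nonneg v; positivity
    have h3 := (h2 fun j => (v j).re).resolve_right hne.ne_empty
    have h4 := (h2 fun j => (v j).im).resolve_right hne.ne_empty
    calc _ ≤ Z * ∑ y ∈ Act ∩ tball p L, (s ^ 2 * (2 / μ) * Φ y (fun j => (v j).re) +
          s ^ 2 * (2 / μ) * Φ y fun j => (v j).im) := by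
          gcongr with y hy
          simp only [hJ', nrmM, nsq_real]
          rw [avg_add]
          exact add_le_add (h1 y hy _) (h1 y hy _)
      _ ≤ Z * (s ^ 2 * (2 / μ) * (2 * t2 * q * (1 + ε) + 8 * a * τ1 ^ 2 * Qn)) * nsq v := by
          rw [sum_add_distrib, ← mul_sum, ← mul_sum, nsq_re_im, mul_assoc Z, ← mul_add,
            mul_assoc (s ^ 2 * (2 / μ)), mul_add (_ + _)]
          gcongr
      _ ≤ _ := by have := nsq_nonneg v; gcongr
  rw [e]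
  refine potM_locA hN hdt hZ hTt (fun y hy k hk => le_trans ?_ hJ) ?_ hqv fun v => ?_
  · have := (hR y hy).lam_nonneg hA ha hF ha' hF'
    gcongr
    exact (norm_jump_le hn hQ (hR y hy) hA hμ hE hT hC ha hF ha' hF' hs _).trans
      (by gcongr; exact hτ y hy k hk)
  · have e2 : ∑ y ∈ Act ∩ tball p L, avgV N (J y) =
        nrmM n s (∑ y ∈ Act ∩ tball p L, XM A w y (avgV N fun k => tau A w y (vv y k))) := by
      refine Eq.symm ((map_sum (nrmL n s) _ _).trans (sum_congr rfl fun y _ => ?_))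
      exact Mon.map_avgV ((nrmL n s).comp (XL A w y)) N _
    rw [e2, sub_zero, zero_add, div_eq_mul_one_div dt]
    gcongr
    refine (norm_nrmM_le hn hE hs (by positivity) fun f g hf hg => ?_).trans hD
    refine (drift_le hA _ hb hβ g f).trans ?_
    have := hE g
    have : 0 ≤ En (Km A w) f := by unfold En; positivity
    calc _ ≤ (2 * b) ^ 2 * ((1 + ε) * E0 g * ((1 + ε) * E0 f)) := by
          gcongr; exacts [hEn g hg, hEn f hf]
      _ = _ := by ring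
  · simp only [hJ', nrmM_herm s (XM_isSymm hA _)]
    exact hqv v

end Crest.Agent.N334.AC.M6
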