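import Crest.Agent.N334.AC.M6.Defs

/-!
# Row 334, S0520 (helper73): M6, jump / drift / quadratic variation of the form increments
-/

set_option autoImplicit false

open Matrix Finset
open scoped ComplexConjugate

namespace Crest.Agent.N334.AC.M6

variable {d M : ℕ} [NeZero M] {E0 : (Tor d M → ℝ) → ℝ} {A : Matrix (Tor d M) (Tor d M) ℂ}
  {w : Tor d M → ℂ} {y : Tor d M} {Q T Cr : Finset (Tor d M)} {r : Tor d M → ℝ}
  {μ a F a' F' h h1 m ι0 ι1 κ m1 m2 : ℝ}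

theorem sum_sq_le_sq_abs {ι : Type} [Fintype ι] (l : ι → ℝ) : ∑ x, l x ^ 2 ≤ (∑ x, |l x|) ^ 2 := by
  simpa using sum_sq_le_sq_sum_of_nonneg (s := univ) (f := fun x => |l x|) fun _ _ => abs_nonneg _

theorem Row.Iy_le (hR : Row A w y Q T Cr r h h1 m ι0 ι1 κ m1 m2) (hA : Adm A w) {b : Tor d M}
    (hb : b ∈ Q ∩ T) : Iy A w y b ≤ h + r b ∧ Iy A w y b ≤ h1 := by
  rw [mem_inter] at hb
  by_cases e : b = y
  · subst e; rw [Iy_self]; exact ⟨add_nonneg hR.h0 (hR.r0 _), hR.h10⟩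
  · rw [Iy_eq hA.diss e]; exact ⟨hR.ent b hb.1 hb.2 e, hR.ent1 b hb.1 hb.2 e⟩

theorem Row.core_le (hR : Row A w y Q T Cr r h h1 m ι0 ι1 κ m1 m2) (hA : Adm A w) :
    ∑ b ∈ Q \ T, Iy A w y b ≤ m := by
  refine le_trans ?_ hR.core
  rw [← sum_filter_ne_zero]
  calc _ ≤ ∑ b ∈ (Q ∩ Cr).erase y, Iy A w y b := by
        refine sum_le_sum_of_subset_of_nonneg (fun b hb => ?_) fun b _ _ => Iy_nonneg b
        simp only [mem_filter, mem_sdiff, mem_erase, mem_inter] at hb ⊢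
        have e : b ≠ y := fun e => hb.2 (e ▸ Iy_self)
        exact ⟨e, hb.1.1, (hR.cover b hb.1.1 e fun e' => hb.2 (Iy_closed e')).resolve_left hb.1.2⟩
    _ ≤ _ := sum_le_sum fun b _ => M6.Iy_le hA.diss b

theorem Row.iot_le (hR : Row A w y Q T Cr r h h1 m ι0 ι1 κ m1 m2) (hA : Adm A w) :
    iot A w y ≤ ι1 := (M6.iot_le hA).trans hR.i1

theorem Row.le_iot (hR : Row A w y Q T Cr r h h1 m ι0 ι1 κ m1 m2) (hA : Adm A w) :
    ι0 ≤ iot A w y := by rw [iot_eq hA]; exact hR.i0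

theorem Row.cap (hR : Row A w y Q T Cr r h h1 m ι0 ι1 κ m1 m2) (hA : Adm A w) (hμ : 0 < μ)
    (hE : ∀ ψ, 0 ≤ E0 ψ) (hT : Cap E0 μ T a F) (hC : Cap E0 μ univ a' F') (ha : 0 ≤ a) (hF : 0 ≤ F)
    (ha' : 0 ≤ a') (hF' : 0 ≤ F') {l u g : Tor d M → ℝ} (hg : Supp g Q) (hv : Van g)
    (hl : ∀ b, |l b| ≤ ‖kv A w y b‖ * u b) {α : ℝ}
    (hα : ∑ b ∈ Q ∩ T, Iy A w y b * u b ^ 2 ≤ α) :
    μ * (∑ b, l b * g b) ^ 2 ≤ 2 * (a * α + (F * ι1 + (a' + F') * m) * ∑ b, u b ^ 2) * E0 g := by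
  set lT : Tor d M → ℝ := fun b => if b ∈ Q ∩ T then l b else 0 with hlT
  set lC : Tor d M → ℝ := fun b => if b ∈ Q \ T then l b else 0 with hlC
  have e : ∑ b, l b * g b = ∑ b, lT b * g b + ∑ b, lC b * g b := by
    rw [← sum_add_distrib]
    refine sum_congr rfl fun b _ => ?_
    by_cases hQ : b ∈ Q <;> by_cases hb : b ∈ T <;> simp [hlT, hlC, hQ, hb, hg b]
  have h2 := hT lT g (fun x hx => by simp [hlT, hx]) hv
  have h3 := hC lC g (fun x hx => absurd (mem_univ x) hx) hv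
  have hcs : ∀ S : Finset (Tor d M), (∑ b, |if b ∈ S then l b else 0|) ^ 2 ≤
      (∑ b ∈ S, Iy A w y b) * ∑ b, u b ^ 2 := fun S => by
    have : ∑ b, |if b ∈ S then l b else 0| = ∑ b ∈ S, |l b| := by
      simp [apply_ite abs]
    rw [this]
    calc _ ≤ (∑ b ∈ S, ‖kv A w y b‖ * u b) ^ 2 := by gcongr with b; exact hl b
      _ ≤ (∑ b ∈ S, ‖kv A w y b‖ ^ 2) * ∑ b ∈ S, u b ^ 2 := sum_mul_sq_le_sq_mul_sq _ _ _
      _ ≤ _ := mul_le_mul_of_nonneg_left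
        (sum_le_sum_of_subset_of_nonneg (subset_univ _) fun _ _ _ => sq_nonneg _) (by positivity)
  have hU : 0 ≤ ∑ b, u b ^ 2 := by positivity
  have h4 : ∑ b, lT b ^ 2 ≤ α := by
    refine le_trans ?_ hα
    have : ∑ b, lT b ^ 2 = ∑ b ∈ Q ∩ T, l b ^ 2 := by
      simp only [hlT, ite_pow, ne_eq, OfNat.ofNat_ne_zero, not_false_eq_true, zero_pow, sum_ite_mem,
        univ_inter]
    rw [this]
    refine sum_le_sum fun b _ => ?_
    rw [Iy, ← mul_pow, ← sq_abs]; gcongr; exact hl b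
  have h5 : (∑ b, |lT b|) ^ 2 ≤ ι1 * ∑ b, u b ^ 2 := by
    refine (hcs _).trans ?_
    gcongr
    exact (sum_le_sum_of_subset_of_nonneg (subset_univ _) fun b _ _ => Iy_nonneg b).trans
      (hR.iot_le hA)
  have h6 : (∑ b, |lC b|) ^ 2 ≤ m * ∑ b, u b ^ 2 := (hcs _).trans (by gcongr; exact hR.core_le hA)
  have h7 := (sum_sq_le_sq_abs lC).trans h6
  have h8 : μ * (∑ b, lT b * g b) ^ 2 ≤ (a * α + F * (ι1 * ∑ b, u b ^ 2)) * E0 g :=
    h2.trans (by have := hE g; gcongr)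
  have h9 : μ * (∑ b, lC b * g b) ^ 2 ≤
      (a' * (m * ∑ b, u b ^ 2) + F' * (m * ∑ b, u b ^ 2)) * E0 g :=
    h3.trans (by have := hE g; gcongr)
  rw [e]
  nlinarith [mul_nonneg hμ.le (sq_nonneg (∑ b, lT b * g b - ∑ b, lC b * g b))]

theorem Row.m_nonneg (hR : Row A w y Q T Cr r h h1 m ι0 ι1 κ m1 m2) (hA : Adm A w) : 0 ≤ m :=
  (sum_nonneg fun b _ => Iy_nonneg b).trans (hR.core_le hA)

theorem Row.lam_nonneg (hR : Row A w y Q T Cr r h h1 m ι0 ι1 κ m1 m2) (hA : Adm A w) (ha : 0 ≤ a)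
    (hF : 0 ≤ F) (ha' : 0 ≤ a') (hF' : 0 ≤ F') : 0 ≤ lamC a F a' F' h1 m ι1 := by
  have := hR.m_nonneg hA
  have := iot_nonneg.trans (hR.iot_le hA)
  have := hR.h10
  unfold lamC; positivity

theorem Row.q_nonneg (hR : Row A w y Q T Cr r h h1 m ι0 ι1 κ m1 m2) (hA : Adm A w) (ha : 0 ≤ a)
    (hF : 0 ≤ F) (ha' : 0 ≤ a') (hF' : 0 ≤ F') : 0 ≤ qC a F a' F' h m ι0 ι1 κ m1 m2 := by
  have := hR.m_nonneg hA
  have := iot_nonneg.trans (hR.iot_le hA)
  have := hR.h0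
  have := hR.κ0
  have := hR.ι00
  have : 0 ≤ m1 := (sum_nonneg fun b _ => hR.r0 b).trans hR.r1
  have : 0 ≤ m2 := (sum_nonneg fun b _ => sq_nonneg _).trans hR.r2
  unfold qC; positivity

/-- leverage -/
theorem Row.lev (hR : Row A w y Q T Cr r h h1 m ι0 ι1 κ m1 m2) (hA : Adm A w) (hμ : 0 < μ)
    (hE : ∀ ψ, 0 ≤ E0 ψ) (hT : Cap E0 μ T a F) (hC : Cap E0 μ univ a' F') (ha : 0 ≤ a) (hF : 0 ≤ F)
    (ha' : 0 ≤ a') (hF' : 0 ≤ F') {f : Tor d M → ℝ} (hf : Supp f Q) (hv : Van f) :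
    μ * star2 A w y f 0 ≤ lamC a F a' F' h1 m ι1 * E0 f := by
  set W := star2 A w y f 0 with hW
  have hW0 : 0 ≤ W := star2_nonneg f 0
  have e1 : ∑ b, (‖kv A w y b‖ * |f b|) ^ 2 = W := by simp [hW, star2, Iy, mul_pow]
  have e2 : ∑ b, Iy A w y b * f b * f b = W := by
    simp only [hW, star2, sub_zero]; exact sum_congr rfl fun b _ => by ring
  have h2 := hR.cap hA hμ hE hT hC ha hF ha' hF' (l := fun b => Iy A w y b * f b)
    (u := fun b => ‖kv A w y b‖ * |f b|) hf hv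
    (fun b => by rw [abs_mul, abs_of_nonneg (Iy_nonneg b), Iy]; exact le_of_eq (by ring))
    (α := h1 * W) (by
      rw [← e1, mul_sum]
      calc _ ≤ ∑ b ∈ Q ∩ T, h1 * (‖kv A w y b‖ * |f b|) ^ 2 :=
            sum_le_sum fun b hb => by gcongr; exact (hR.Iy_le hA hb).2
        _ ≤ _ := sum_le_sum_of_subset_of_nonneg (subset_univ _) fun b _ _ => by
            have := hR.h10; positivity)
  rw [e1, e2] at h2
  rcases hW0.eq_or_lt with h0 | h0
  · rw [← h0, mul_zero]; exact mul_nonneg (hR.lam_nonneg hA ha hF ha' hF') (hE f)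
  · refine le_of_mul_le_mul_right ?_ h0
    unfold lamC; nlinarith

theorem zv_sq_le (hA : Adm A w) (f : Tor d M → ℝ) (b : Tor d M) : ‖zv A w y f b‖ ^ 2 ≤
    2 * (Iy A w y b * (f b - vm A w y f) ^ 2) +
      8 * (gam w b * (Gm A w b b).im * star2 A w y f (vm A w y f)) := by
  set p : Tor d M → ℂ := fun a => kv A w y a * ((f a - vm A w y f : ℝ) : ℂ) with hp
  have e : zv A w y f b = p b - 2 * Complex.I * ((fun a => conj (Km A w b a)) ⬝ᵥ p) := by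
    simp only [zv, mulVec, dotProduct, Sb, sub_mul, sum_sub_distrib, ite_mul, one_mul, zero_mul,
      sum_ite_eq, mem_univ, if_true, mul_sum, hp, mul_assoc]
  have h1 := cs' (fun a => conj (Km A w b a)) p
  rw [hp, nsq_kv_mul, ← hp] at h1
  have h2 : nsq (fun a => conj (Km A w b a)) = gam w b * (Gm A w b b).im := by
    rw [← Km_row hA]; simp [nsq]
  have h3 : ‖p b‖ ^ 2 = Iy A w y b * (f b - vm A w y f) ^ 2 := by
    simp only [hp, Iy, norm_mul, mul_pow, Complex.norm_real, Real.norm_eq_abs, sq_abs]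
  have h4 := norm_sub_le (p b) (2 * Complex.I * ((fun a => conj (Km A w b a)) ⬝ᵥ p))
  rw [h2] at h1
  rw [e, ← h3]
  simp only [norm_mul, Complex.norm_ofNat, Complex.norm_I, mul_one] at h4
  have h5 := pow_le_pow_left₀ (norm_nonneg _) h4 2
  nlinarith [sq_nonneg (‖p b‖ - 2 * ‖(fun a => conj (Km A w b a)) ⬝ᵥ p‖)]

theorem Row.tame (hR : Row A w y Q T Cr r h h1 m ι0 ι1 κ m1 m2) (hA : Adm A w) (f : Tor d M → ℝ) :
    ∑ b ∈ Q ∩ T, Iy A w y b * ‖zv A w y f b‖ ^ 2 ≤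
      (3 * h + 8 * m2 / ι0 + 8 * m1 * κ) * star2 A w y f (f y) +
        8 * ∑ b, r b ^ 2 * (f b - f y) ^ 2 := by
  set W := star2 A w y f (f y) with hW
  set V := vm A w y f with hV
  set W' := star2 A w y f V with hW'
  have hWW : W' ≤ W := star2_vm_le f _
  have hW0 : 0 ≤ W' := star2_nonneg f _
  have hh := hR.h0
  have hκ := hR.κ0
  have hι := hR.ι00
  have hVy : (V - f y) ^ 2 ≤ W / ι0 := by
    rw [le_div_iff₀ hι]
    have h1 := star2_eq (A := A) (w := w) (y := y) f (f y)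
    have h2 := hR.le_iot hA
    nlinarith [sq_nonneg (V - f y)]
  have h1 : ∀ b ∈ Q ∩ T, Iy A w y b * ‖zv A w y f b‖ ^ 2 ≤ h * ‖zv A w y f b‖ ^ 2 +
      2 * h * (Iy A w y b * (f b - V) ^ 2) + 8 * (r b ^ 2 * (f b - f y) ^ 2) +
      8 * (W / ι0) * r b ^ 2 + 8 * (κ * W) * r b := by
    intro b hb
    have h2 := (hR.Iy_le hA hb).1
    have h3 := hR.r0 b
    have h4 := Iy_nonneg (A := A) (w := w) (y := y) b
    have h5 : r b * ‖zv A w y f b‖ ^ 2 ≤ r b * (2 * (Iy A w y b * (f b - V) ^ 2) + 8 * (κ * W)) := by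
      by_cases e : r b = 0
      · simp [e]
      refine mul_le_mul_of_nonneg_left ((zv_sq_le hA f b).trans ?_) h3
      have := hR.kap b (mem_inter.1 hb).1 (mem_inter.1 hb).2 e
      gcongr
    have h6 : r b * Iy A w y b ≤ h * Iy A w y b + 2 * r b ^ 2 := by
      rcases le_total (r b) h with e | e <;> nlinarith
    have h7 : (f b - V) ^ 2 ≤ 2 * (f b - f y) ^ 2 + 2 * (W / ι0) := by
      nlinarith [sq_nonneg (f b - f y + (V - f y))]
    have h8 := mul_le_mul_of_nonneg_right h6 (sq_nonneg (f b - V))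
    have h9 := mul_le_mul_of_nonneg_left h7 (sq_nonneg (r b))
    have h10 := mul_le_mul_of_nonneg_right h2 (sq_nonneg ‖zv A w y f b‖)
    nlinarith
  have hW0' : 0 ≤ W := hW0.trans hWW
  calc _ ≤ _ := sum_le_sum h1
    _ ≤ ∑ b, (h * ‖zv A w y f b‖ ^ 2 + 2 * h * (Iy A w y b * (f b - V) ^ 2) +
        8 * (r b ^ 2 * (f b - f y) ^ 2) + 8 * (W / ι0) * r b ^ 2 + 8 * (κ * W) * r b) :=
      sum_le_sum_of_subset_of_nonneg (subset_univ _) fun b _ _ => by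
        have := hR.r0 b
        have := Iy_nonneg (A := A) (w := w) (y := y) b
        positivity
    _ = h * W' + 2 * h * W' + 8 * ∑ b, r b ^ 2 * (f b - f y) ^ 2 + 8 * (W / ι0) * ∑ b, r b ^ 2 +
        8 * (κ * W) * ∑ b, r b := by
      simp only [sum_add_distrib, ← mul_sum]
      rw [← nsq, nsq_zv hA]; rfl
    _ ≤ h * W + 2 * h * W + 8 * ∑ b, r b ^ 2 * (f b - f y) ^ 2 + 8 * (W / ι0) * m2 +
        8 * (κ * W) * m1 := by gcongr; exacts [hR.r2, hR.r1]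
    _ = _ := by ring

/-- dual bound behind the quadratic variation -/
theorem Row.qv (hR : Row A w y Q T Cr r h h1 m ι0 ι1 κ m1 m2) (hA : Adm A w) (hμ : 0 < μ)
    (hE : ∀ ψ, 0 ≤ E0 ψ) (hT : Cap E0 μ T a F) (hC : Cap E0 μ univ a' F') (ha : 0 ≤ a) (hF : 0 ≤ F)
    (ha' : 0 ≤ a') (hF' : 0 ≤ F') (τ : ℂ) (f : Tor d M → ℝ) {g : Tor d M → ℝ} (hg : Supp g Q)
    (hv : Van g) : μ * (f ⬝ᵥ XM A w y τ *ᵥ g) ^ 2 ≤
      2 * ‖τ‖ ^ 2 * (qC a F a' F' h m ι0 ι1 κ m1 m2 * star2 A w y f (f y) +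
        8 * a * ∑ b, r b ^ 2 * (f b - f y) ^ 2) * E0 g := by
  have h2 := hR.cap hA hμ hE hT hC ha hF ha' hF'
    (l := fun b => (τ * (Complex.I * kv A w y b * zv A w y f b)).re)
    (u := fun b => ‖τ‖ * ‖zv A w y f b‖) hg hv
    (fun b => (Complex.abs_re_le_norm _).trans (le_of_eq (by simp; ring)))
    (α := ‖τ‖ ^ 2 * ((3 * h + 8 * m2 / ι0 + 8 * m1 * κ) * star2 A w y f (f y) +
        8 * ∑ b, r b ^ 2 * (f b - f y) ^ 2)) (by
      refine le_trans (le_of_eq ?_) (mul_le_mul_of_nonneg_left (hR.tame hA f) (sq_nonneg ‖τ‖))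
      rw [mul_sum]; exact sum_congr rfl fun b _ => by ring)
  have h3 : ∑ b, (‖τ‖ * ‖zv A w y f b‖) ^ 2 ≤ ‖τ‖ ^ 2 * star2 A w y f (f y) := by
    simp only [mul_pow, ← mul_sum]
    gcongr
    exact nsq_zv_le hA f _
  rw [XM_form hA]
  refine h2.trans ?_
  have := hE g
  have := hR.m_nonneg hA
  have := iot_nonneg.trans (hR.iot_le hA)
  calc _ ≤ 2 * (a * (‖τ‖ ^ 2 * ((3 * h + 8 * m2 / ι0 + 8 * m1 * κ) * star2 A w y f (f y) +
        8 * ∑ b, r b ^ 2 * (f b - f y) ^ 2)) +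
        (F * ι1 + (a' + F') * m) * (‖τ‖ ^ 2 * star2 A w y f (f y))) * E0 g := by gcongr
    _ = _ := by unfold qC; ring

theorem gam_star2 (hA : Adm A w) (f : Tor d M → ℝ) (y : Tor d M) :
    gam w y * star2 A w y f (f y) = ∑ b, ‖Km A w y b‖ ^ 2 * (f y - f b) ^ 2 := by
  rw [star2, mul_sum]
  refine sum_congr rfl fun b _ => ?_
  by_cases e : b = y
  · simp [e]
  · rw [Km_comm hA, Km_col_sq hA.diss e]; ring

/-- the star energies add up to twice the energy -/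
theorem sum_star2_le (hA : Adm A w) (U : Finset (Tor d M)) (f : Tor d M → ℝ) :
    ∑ y ∈ U, gam w y * star2 A w y f (f y) ≤ 2 * En (Km A w) f := by
  simp only [gam_star2 hA, En]
  rw [← mul_assoc, show (2 : ℝ) * (1 / 2) = 1 by norm_num, one_mul]
  exact sum_le_sum_of_subset_of_nonneg (subset_univ _) fun _ _ _ => by positivity

/-- drift -/
theorem drift_le (hA : Adm A w) (U : Finset (Tor d M)) {β : Tor d M → ℂ} {b : ℝ} (hb : 0 ≤ b)
    (hβ : ∀ y ∈ U, ‖β y‖ ≤ b * gam w y) (f g : Tor d M → ℝ) :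
    (f ⬝ᵥ (∑ y ∈ U, XM A w y (β y)) *ᵥ g) ^ 2 ≤ (2 * b) ^ 2 * (En (Km A w) f * En (Km A w) g) := by
  rw [sum_mulVec, dotProduct_sum]
  have h1 := sum_sq_le_sum_mul_sum_of_sq_le_mul U (r := fun y => f ⬝ᵥ XM A w y (β y) *ᵥ g)
    (f := fun y => b * (gam w y * star2 A w y f (f y)))
    (g := fun y => b * (gam w y * star2 A w y g (g y)))
    (fun y _ => mul_nonneg hb (mul_nonneg (hA.diss y) (star2_nonneg _ _)))
    (fun y _ => mul_nonneg hb (mul_nonneg (hA.diss y) (star2_nonneg _ _))) fun y hy => by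
      refine (XM_sq_le hA (β y) f g (f y) (g y)).trans ?_
      have := star2_nonneg (A := A) (w := w) (y := y) f (f y)
      have := star2_nonneg (A := A) (w := w) (y := y) g (g y)
      calc _ ≤ (b * gam w y) ^ 2 * (star2 A w y f (f y) * star2 A w y g (g y)) := by
            gcongr; exact hβ y hy
        _ = _ := by ring
  refine h1.trans ?_
  rw [← mul_sum, ← mul_sum]
  have h2 := sum_star2_le hA U f
  have h3 := sum_star2_le hA U g
  have h4 : 0 ≤ ∑ y ∈ U, gam w y * star2 A w y g (g y) :=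
    sum_nonneg fun y _ => mul_nonneg (hA.diss y) (star2_nonneg _ _)
  have h5 : 0 ≤ ∑ y ∈ U, gam w y * star2 A w y f (f y) :=
    sum_nonneg fun y _ => mul_nonneg (hA.diss y) (star2_nonneg _ _)
  calc _ ≤ b * (2 * En (Km A w) f) * (b * (2 * En (Km A w) g)) := by
        gcongr; exact mul_nonneg hb (h5.trans h2)
    _ = _ := by ring

end Crest.Agent.N334.AC.M6
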