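import Crest.Agent.N334.AC.Iface
import Crest.Agent.N334.AC.Mat

/-!
# Row 334, S0520 (helper73): the form increment of a one-site closing
-/

set_option autoImplicit false
set_option linter.unusedSectionVars false

open Matrix Finset
open scoped ComplexConjugate

namespace Crest.Agent.N334.AC.M6

variable {ι : Type} [Fintype ι] [DecidableEq ι]

/-- the column `γ_a^{1/2} G_{ay}` of the closing site (zero at `y`) -/
noncomputable def kv (A : Matrix ι ι ℂ) (w : ι → ℂ) (y : ι) : ι → ℂ := fun a =>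
  if a = y then 0 else (√(gam w a) : ℂ) * Gm A w a y

/-- intensity `I_y(a) = γ_a |G_{ay}|²` (zero at `y`) -/
noncomputable def Iy (A : Matrix ι ι ℂ) (w : ι → ℂ) (y a : ι) : ℝ := ‖kv A w y a‖ ^ 2

/-- total intensity -/
noncomputable def iot (A : Matrix ι ι ℂ) (w : ι → ℂ) (y : ι) : ℝ := ∑ a, Iy A w y a

/-- the `I_y`-mean -/
noncomputable def vm (A : Matrix ι ι ℂ) (w : ι → ℂ) (y : ι) (f : ι → ℝ) : ℝ :=
  (∑ a, Iy A w y a * f a) / iot A w y

/-- star form `∑ I_y(a) (f_a - c)²` -/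
noncomputable def star2 (A : Matrix ι ι ℂ) (w : ι → ℂ) (y : ι) (f : ι → ℝ) (c : ℝ) : ℝ :=
  ∑ a, Iy A w y a * (f a - c) ^ 2

/-- `τ = u / (1 + u G_yy)`, `u = v - w_y` -/
noncomputable def tau (A : Matrix ι ι ℂ) (w : ι → ℂ) (y : ι) (v : ℝ) : ℂ :=
  ((v : ℂ) - w y) / (1 + ((v : ℂ) - w y) * Gm A w y y)

/-- `S̄ = 1 - 2 i K̄` -/
noncomputable def Sb (A : Matrix ι ι ℂ) (w : ι → ℂ) : Matrix ι ι ℂ := fun a b =>
  (if a = b then 1 else 0) - 2 * Complex.I * conj (Km A w a b)

/-- the complex form `Ξ_y` -/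
noncomputable def XiM (A : Matrix ι ι ℂ) (w : ι → ℂ) (y : ι) : Matrix ι ι ℂ := fun a b =>
  Complex.I * (kv A w y a * Sb A w a b * kv A w y b -
    (1 + 2 * Complex.I * Km A w y y) * (Iy A w y a * Iy A w y b / iot A w y : ℝ))

/-- the real form increment `X_y(τ) = Re (τ Ξ_y)` -/
noncomputable def XM (A : Matrix ι ι ℂ) (w : ι → ℂ) (y : ι) (τ : ℂ) : Matrix ι ι ℝ := fun a b =>
  (τ * XiM A w y a b).re

/-- the vector `S̄ (k (f - mean))` -/
noncomputable def zv (A : Matrix ι ι ℂ) (w : ι → ℂ) (y : ι) (f : ι → ℝ) : ι → ℂ :=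
  Sb A w *ᵥ fun a => kv A w y a * ((f a - vm A w y f : ℝ) : ℂ)

variable {A : Matrix ι ι ℂ} {w : ι → ℂ} {y : ι}

theorem kv_self : kv A w y y = 0 := by simp [kv]
theorem Iy_self : Iy A w y y = 0 := by simp [Iy, kv]
theorem Iy_nonneg (a : ι) : 0 ≤ Iy A w y a := by unfold Iy; positivity
theorem iot_nonneg : 0 ≤ iot A w y := sum_nonneg fun a _ => Iy_nonneg a
theorem star2_nonneg (f : ι → ℝ) (c : ℝ) : 0 ≤ star2 A w y f c :=
  sum_nonneg fun a _ => mul_nonneg (Iy_nonneg a) (sq_nonneg _)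

theorem Iy_eq (h : ∀ x, 0 ≤ gam w x) {a : ι} (ha : a ≠ y) :
    Iy A w y a = gam w a * ‖Gm A w a y‖ ^ 2 := by
  simp [Iy, kv, ha, mul_pow, Real.sq_sqrt (h a)]

theorem Iy_le (h : ∀ x, 0 ≤ gam w x) (a : ι) : Iy A w y a ≤ gam w a * ‖Gm A w a y‖ ^ 2 := by
  by_cases ha : a = y
  · subst ha; rw [Iy_self]; have := h a; positivity
  · exact (Iy_eq h ha).le

theorem kv_closed {a : ι} (ha : gam w a = 0) : kv A w y a = 0 := by simp [kv, ha]
theorem Iy_closed {a : ι} (ha : gam w a = 0) : Iy A w y a = 0 := by simp [Iy, kv_closed ha]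

theorem Iy_le_iot (a : ι) : Iy A w y a ≤ iot A w y :=
  single_le_sum (f := Iy A w y) (fun a _ => Iy_nonneg a) (mem_univ a)

theorem Km_col_sq (h : ∀ x, 0 ≤ gam w x) {a : ι} (ha : a ≠ y) :
    ‖Km A w a y‖ ^ 2 = gam w y * Iy A w y a := by
  simp [Iy, kv, ha, Km, mul_pow, Real.sq_sqrt (h _)]; ring

theorem mul_Gm (h : Adm A w) : Hm A w * Gm A w = 1 := mul_nonsing_inv _ h.inv

theorem Gm_comm (h : Adm A w) (a b : ι) : Gm A w a b = Gm A w b a := by
  have : (Gm A w)ᵀ = Gm A w := by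
    rw [Gm, transpose_nonsing_inv, Hm, transpose_add, h.symm.eq, diagonal_transpose]
  exact (congrFun (congrFun this a) b).symm

theorem Km_comm (h : Adm A w) (a b : ι) : Km A w a b = Km A w b a := by
  rw [Km, Km, Gm_comm h a b]; ring

theorem Km_sq (h : ∀ x, 0 ≤ gam w x) (a b : ι) :
    ‖Km A w a b‖ ^ 2 = gam w a * gam w b * ‖Gm A w a b‖ ^ 2 := by
  simp [Km, mul_pow, Real.sq_sqrt (h _)]; ring

/-- polarised Ward identity -/
theorem ward2 (h : Adm A w) (a b : ι) :
    2 * Complex.I * ∑ c, conj (Gm A w a c) * (gam w c : ℂ) * Gm A w c b =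
      Gm A w a b - conj (Gm A w a b) := by
  have h1 : (Gm A w)ᴴ * (Hm A w)ᴴ = 1 := by
    rw [← conjTranspose_mul, mul_Gm h, conjTranspose_one]
  have h2 : (Hm A w)ᴴ - Hm A w = diagonal fun c => 2 * Complex.I * (gam w c : ℂ) := by
    rw [Hm, conjTranspose_add, h.herm.eq, diagonal_conjTranspose, add_sub_add_left_eq_sub,
      diagonal_sub]
    congr 1; funext c
    apply Complex.ext <;> simp [gam]
    ring
  have h3 : (Gm A w)ᴴ * ((Hm A w)ᴴ - Hm A w) * Gm A w = Gm A w - (Gm A w)ᴴ := by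
    rw [Matrix.mul_sub, h1, Matrix.sub_mul, Matrix.one_mul, Matrix.mul_assoc, mul_Gm h,
      Matrix.mul_one]
  have h4 := congrFun (congrFun h3 a) b
  rw [h2, Matrix.mul_apply, Matrix.sub_apply, conjTranspose_apply, Gm_comm h b a] at h4
  rw [RCLike.star_def] at h4
  rw [← h4, mul_sum]
  refine sum_congr rfl fun c _ => ?_
  rw [mul_diagonal, conjTranspose_apply, Gm_comm h c a, RCLike.star_def]; ring

theorem ward_diag (h : Adm A w) (y : ι) : ∑ a, gam w a * ‖Gm A w a y‖ ^ 2 = (Gm A w y y).im := by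
  have h1 := congrArg Complex.im (ward2 h y y)
  have h2 : ∀ c, conj (Gm A w y c) * (gam w c : ℂ) * Gm A w c y =
      ((gam w c * ‖Gm A w c y‖ ^ 2 : ℝ) : ℂ) := fun c => by
    rw [Gm_comm h y c, mul_right_comm, Complex.conj_mul']; push_cast; ring
  simp only [h2, ← Complex.ofReal_sum] at h1
  generalize ∑ a, gam w a * ‖Gm A w a y‖ ^ 2 = s at h1 ⊢
  simp at h1
  linarith

theorem iot_eq (h : Adm A w) : iot A w y = (Gm A w y y).im - gam w y * ‖Gm A w y y‖ ^ 2 := by
  rw [← ward_diag h, iot, ← add_sum_erase _ _ (mem_univ y), ← add_sum_erase _ _ (mem_univ y), Iy_self,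
    sum_congr rfl fun a ha => Iy_eq h.diss (ne_of_mem_erase ha)]
  ring

theorem iot_le (h : Adm A w) : iot A w y ≤ (Gm A w y y).im := by
  rw [iot_eq h]; have := h.diss y; have : 0 ≤ gam w y * ‖Gm A w y y‖ ^ 2 := by positivity
  linarith

theorem Km_row (h : Adm A w) (a : ι) : ∑ b, ‖Km A w a b‖ ^ 2 = gam w a * (Gm A w a a).im := by
  rw [← ward_diag h, mul_sum]
  exact sum_congr rfl fun b _ => by rw [Km_sq h.diss, Gm_comm h a b]; ring

theorem sqrt_mul_sqrt (h : ∀ x, 0 ≤ gam w x) (c : ι) :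
    (√(gam w c) : ℂ) * (√(gam w c) : ℂ) = gam w c := by
  rw [← Complex.ofReal_mul, Real.mul_self_sqrt (h c)]

/-- unitarity applied to the column of `y` -/
theorem Sb_kv (h : Adm A w) (a : ι) : kv A w y a * (Sb A w *ᵥ kv A w y) a =
    (1 + 2 * Complex.I * Km A w y y) * Iy A w y a := by
  by_cases ha : a = y
  · subst ha; simp [kv_self, Iy_self]
  have h1 := ward2 h a y
  have h2 : (Sb A w *ᵥ kv A w y) a = kv A w y a - (√(gam w a) : ℂ) *
      (2 * Complex.I * ∑ c, conj (Gm A w a c) * (gam w c : ℂ) * Gm A w c y -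
        2 * Complex.I * conj (Gm A w a y) * (gam w y : ℂ) * Gm A w y y) := by
    simp only [mulVec, dotProduct, Sb, sub_mul, sum_sub_distrib, ite_mul, one_mul, zero_mul,
      sum_ite_eq, mem_univ, if_true]
    congr 1
    rw [← add_sum_erase _ _ (mem_univ y), ← add_sum_erase _ _ (mem_univ y), kv_self, mul_zero,
      zero_add, mul_add, mul_sub, mul_add, mul_sum, mul_sum]
    have : ∀ c ∈ univ.erase y, 2 * Complex.I * conj (Km A w a c) * kv A w y c =
        (√(gam w a) : ℂ) * (2 * Complex.I * (conj (Gm A w a c) * (gam w c : ℂ) * Gm A w c y)) := by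
      intro c hc
      rw [← sqrt_mul_sqrt h.diss c]
      simp only [Km, kv, ne_of_mem_erase hc, if_false, map_mul, Complex.conj_ofReal]; ring
    rw [sum_congr rfl this]; ring
  rw [h2, h1]
  have h3 : (Iy A w y a : ℂ) = kv A w y a * conj (kv A w y a) := by
    rw [Iy, Complex.mul_conj']; simp
  rw [h3, Km, mul_right_comm (√(gam w y) : ℂ), sqrt_mul_sqrt h.diss]
  simp only [kv, ha, if_false, map_mul, Complex.conj_ofReal]; ring

theorem Sb_comm (h : Adm A w) (a b : ι) : Sb A w a b = Sb A w b a := by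
  simp only [Sb, Km_comm h a b, eq_comm]

theorem XiM_comm (h : Adm A w) (a b : ι) : XiM A w y a b = XiM A w y b a := by
  simp only [XiM, Sb_comm h a b, mul_comm (Iy A w y a)]; ring

theorem XM_comm (h : Adm A w) (τ : ℂ) (a b : ι) : XM A w y τ a b = XM A w y τ b a := by
  simp only [XM, XiM_comm h a b]

theorem XM_isSymm (h : Adm A w) (τ : ℂ) : (XM A w y τ).IsSymm := by
  ext a b; exact XM_comm h τ b a

theorem wardK (h : Adm A w) (a b : ι) :
    2 * Complex.I * ∑ c, conj (Km A w a c) * Km A w c b = Km A w a b - conj (Km A w a b) := by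
  have h1 := ward2 h a b
  have h2 : ∀ c, conj (Km A w a c) * Km A w c b = (√(gam w a) : ℂ) * (√(gam w b) : ℂ) *
      (conj (Gm A w a c) * (gam w c : ℂ) * Gm A w c b) := fun c => by
    rw [← sqrt_mul_sqrt h.diss c]
    simp only [Km, map_mul, Complex.conj_ofReal]; ring
  simp only [h2, ← mul_sum]
  simp only [Km, map_mul, Complex.conj_ofReal]
  linear_combination (√(gam w a) : ℂ) * (√(gam w b) : ℂ) * h1

theorem Sb_unitary (h : Adm A w) : (Sb A w)ᴴ * Sb A w = 1 := by
  ext a b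
  have h1 := congrArg conj (wardK h a b)
  simp only [map_mul, map_sum, map_sub, Complex.conj_conj, Complex.conj_I, map_ofNat] at h1
  have h2 : ∀ c, (Sb A w)ᴴ a c * Sb A w c b = (if c = a then (if c = b then 1 else 0) else 0) -
      (if c = a then 2 * Complex.I * conj (Km A w c b) else 0) +
      (if c = b then 2 * Complex.I * Km A w a c else 0) + 4 * (Km A w a c * conj (Km A w c b)) := by
    intro c
    simp only [conjTranspose_apply, Sb, RCLike.star_def, map_sub, map_mul, Complex.conj_conj,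
      Complex.conj_I, map_ofNat, Km_comm h c a]
    split_ifs <;> simp <;> ring_nf <;> simp
  rw [Matrix.mul_apply]
  simp only [h2, sum_add_distrib, sum_sub_distrib, sum_ite_eq', mem_univ, if_true, ← mul_sum,
    one_apply]
  linear_combination (2 * Complex.I) * h1 + (4 * ∑ c, Km A w a c * conj (Km A w c b)) * Complex.I_sq

/-- `S̄` is an isometry -/
theorem nsq_Sb (h : Adm A w) (p : ι → ℂ) : nsq (Sb A w *ᵥ p) = nsq p := by
  have : (nsq (Sb A w *ᵥ p) : ℂ) = nsq p := by
    rw [← dot_self, ← dot_self, star_mulVec, ← dotProduct_mulVec, mulVec_mulVec, Sb_unitary h,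
      one_mulVec]
  exact_mod_cast this

/-- `‖K̄‖ ≤ 1` -/
theorem nsq_Kbar (h : Adm A w) (p : ι → ℂ) :
    nsq (fun a => ∑ b, conj (Km A w a b) * p b) ≤ nsq p := by
  have e : (fun a => ∑ b, conj (Km A w a b) * p b) = (Complex.I / 2) • (Sb A w *ᵥ p + -p) := by
    funext a
    simp only [mulVec, dotProduct, Sb, sub_mul, sum_sub_distrib, ite_mul, one_mul, zero_mul,
      sum_ite_eq, mem_univ, if_true, Pi.smul_apply, Pi.add_apply, Pi.neg_apply, smul_eq_mul,
      mul_assoc, ← mul_sum]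
    linear_combination (∑ b, conj (Km A w a b) * p b) * Complex.I_sq
  have h1 := nsq_add_le (Sb A w *ᵥ p) (-p)
  rw [nsq_Sb h, nsq_neg] at h1
  rw [e, nsq_smul]
  simp only [norm_div, Complex.norm_I, Complex.norm_ofNat]
  linarith

theorem sum_Iy_sub (f : ι → ℝ) : ∑ a, Iy A w y a * (f a - vm A w y f) = 0 := by
  rcases (iot_nonneg (A := A) (w := w) (y := y)).eq_or_lt with h0 | h0
  · refine sum_eq_zero fun a _ => ?_
    rw [le_antisymm (h0 ▸ Iy_le_iot a) (Iy_nonneg a), zero_mul]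
  · simp only [mul_sub, sum_sub_distrib, ← sum_mul]
    rw [vm, ← iot, mul_div_cancel₀ _ h0.ne', sub_self]

theorem star2_eq (f : ι → ℝ) (c : ℝ) :
    star2 A w y f c = star2 A w y f (vm A w y f) + iot A w y * (vm A w y f - c) ^ 2 := by
  have h1 := sum_Iy_sub (A := A) (w := w) (y := y) f
  have h2 : ∀ a, Iy A w y a * (f a - c) ^ 2 = Iy A w y a * (f a - vm A w y f) ^ 2 +
      Iy A w y a * (vm A w y f - c) ^ 2 +
      2 * (vm A w y f - c) * (Iy A w y a * (f a - vm A w y f)) := fun a => by ring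
  simp only [star2, h2, sum_add_distrib, ← mul_sum, ← sum_mul, h1, iot]; ring

theorem star2_vm_le (f : ι → ℝ) (c : ℝ) : star2 A w y f (vm A w y f) ≤ star2 A w y f c := by
  rw [star2_eq f c]
  have := mul_nonneg (iot_nonneg (A := A) (w := w) (y := y)) (sq_nonneg (vm A w y f - c))
  linarith

theorem nsq_kv_mul (f : ι → ℝ) (c : ℝ) :
    nsq (fun a => kv A w y a * ((f a - c : ℝ) : ℂ)) = star2 A w y f c := by
  simp only [nsq, star2, Iy, norm_mul, mul_pow, Complex.norm_real, Real.norm_eq_abs, sq_abs]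

theorem nsq_zv (h : Adm A w) (f : ι → ℝ) : nsq (zv A w y f) = star2 A w y f (vm A w y f) := by
  rw [zv, nsq_Sb h, nsq_kv_mul]

theorem nsq_zv_le (h : Adm A w) (f : ι → ℝ) (c : ℝ) : nsq (zv A w y f) ≤ star2 A w y f c := by
  rw [nsq_zv h]; exact star2_vm_le f c

/-- the row functional of `Ξ` -/
theorem XiM_row (h : Adm A w) (f : ι → ℝ) (b : ι) :
    ∑ a, (f a : ℂ) * XiM A w y a b = Complex.I * kv A w y b * zv A w y f b := by
  have h1 := Sb_kv (y := y) h b
  have h2 : zv A w y f b = ∑ a, Sb A w a b * kv A w y a * f a -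
      (Sb A w *ᵥ kv A w y) b * vm A w y f := by
    simp only [zv, mulVec, dotProduct, sum_mul, ← sum_sub_distrib, Sb_comm h b]
    exact sum_congr rfl fun a _ => by push_cast; ring
  have h3 : ((vm A w y f * Iy A w y b : ℝ) : ℂ) =
      ∑ a, (f a : ℂ) * (Iy A w y a * Iy A w y b / iot A w y : ℝ) := by
    rw [vm, sum_div, sum_mul]; push_cast
    exact sum_congr rfl fun a _ => by ring
  rw [h2, mul_sub, mul_assoc Complex.I, mul_assoc Complex.I, ← mul_assoc (kv A w y b) _ (vm A w y f : ℂ),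
    h1, mul_assoc (1 + _), ← Complex.ofReal_mul, mul_comm (Iy A w y b), h3, mul_sum, mul_sum,
    mul_sum, mul_sum, ← sum_sub_distrib]
  exact sum_congr rfl fun a _ => by rw [XiM]; ring

/-- the row functional of `X` -/
theorem XM_form (h : Adm A w) (τ : ℂ) (f g : ι → ℝ) : f ⬝ᵥ XM A w y τ *ᵥ g =
    ∑ b, (τ * (Complex.I * kv A w y b * zv A w y f b)).re * g b := by
  simp only [← XiM_row h, dotProduct, mulVec, XM, mul_sum, Complex.re_sum, sum_mul]
  rw [sum_comm]
  refine sum_congr rfl fun b _ => sum_congr rfl fun a _ => ?_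
  rw [mul_left_comm τ, Complex.re_ofReal_mul]; ring

theorem form_comm {X : Matrix ι ι ℝ} (h : X.IsSymm) (f g : ι → ℝ) : f ⬝ᵥ X *ᵥ g = g ⬝ᵥ X *ᵥ f := by
  rw [dotProduct_mulVec, ← mulVec_transpose, h.eq, dotProduct_comm]

theorem vm_const (c : ℝ) (a : ι) : kv A w y a * ((c - vm A w y fun _ => c : ℝ) : ℂ) = 0 := by
  rcases (iot_nonneg (A := A) (w := w) (y := y)).eq_or_lt with h0 | h0
  · have : Iy A w y a = 0 := le_antisymm (h0 ▸ Iy_le_iot a) (Iy_nonneg a)
    simp only [Iy, ne_eq, OfNat.ofNat_ne_zero, not_false_eq_true, pow_eq_zero_iff, norm_eq_zero] at this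
    rw [this, zero_mul]
  · rw [vm, ← sum_mul, ← iot, mul_div_cancel_left₀ _ h0.ne']; simp

theorem XM_const_left (h : Adm A w) (τ : ℂ) (c : ℝ) (g : ι → ℝ) :
    (fun _ => c) ⬝ᵥ XM A w y τ *ᵥ g = 0 := by
  have : zv A w y (fun _ => c) = 0 := by
    rw [zv, show (fun a => kv A w y a * ((c - vm A w y fun _ => c : ℝ) : ℂ)) = 0 from
      funext fun a => vm_const c a, mulVec_zero]
  simp [XM_form h, this]

theorem XM_mulVec_const (h : Adm A w) (τ : ℂ) (c : ℝ) : XM A w y τ *ᵥ (fun _ => c) = 0 := by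
  funext a
  have := XM_const_left (y := y) h τ c (Pi.single a 1)
  rw [form_comm (XM_isSymm h τ)] at this
  simpa using this

theorem XM_shift (h : Adm A w) (τ : ℂ) (f g : ι → ℝ) (c c' : ℝ) :
    (fun a => f a - c) ⬝ᵥ XM A w y τ *ᵥ (fun a => g a - c') = f ⬝ᵥ XM A w y τ *ᵥ g := by
  have e1 : (fun a => f a - c) = f - fun _ => c := rfl
  have e2 : (fun a => g a - c') = g - fun _ => c' := rfl
  rw [e1, e2, mulVec_sub, XM_mulVec_const h, sub_zero, sub_dotProduct, XM_const_left h, sub_zero]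

/-- two free centrings -/
theorem XM_sq_le (h : Adm A w) (τ : ℂ) (f g : ι → ℝ) (c c' : ℝ) :
    (f ⬝ᵥ XM A w y τ *ᵥ g) ^ 2 ≤ ‖τ‖ ^ 2 * (star2 A w y f c * star2 A w y g c') := by
  rw [← XM_shift h τ f g 0 c']
  simp only [sub_zero]
  rw [XM_form h]
  have h1 : ∑ b, (τ * (Complex.I * kv A w y b * zv A w y f b)).re * (g b - c') =
      (τ * Complex.I * (zv A w y f ⬝ᵥ fun a => kv A w y a * ((g a - c' : ℝ) : ℂ))).re := by
    rw [dotProduct, mul_sum, Complex.re_sum]
    refine sum_congr rfl fun b _ => ?_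
    rw [← Complex.re_mul_ofReal]; congr 1; ring
  rw [h1]
  have h2 := cs' (zv A w y f) fun a => kv A w y a * ((g a - c' : ℝ) : ℂ)
  rw [nsq_kv_mul] at h2
  have h3 := nsq_zv_le (y := y) h f c
  have h4 := star2_nonneg (A := A) (w := w) (y := y) g c'
  calc _ ≤ ‖τ * Complex.I * (zv A w y f ⬝ᵥ fun a => kv A w y a * ((g a - c' : ℝ) : ℂ))‖ ^ 2 := by
        rw [← sq_abs]; gcongr; exact Complex.abs_re_le_norm _
    _ = ‖τ‖ ^ 2 * ‖zv A w y f ⬝ᵥ fun a => kv A w y a * ((g a - c' : ℝ) : ℂ)‖ ^ 2 := by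
        simp [mul_pow]
    _ ≤ _ := by gcongr; exact h2.trans (by gcongr)

/-- the form only sees the open sites other than `y` -/
theorem XM_apply_zero (τ : ℂ) {a : ι} (ha : a = y ∨ gam w a = 0) (b : ι) : XM A w y τ a b = 0 := by
  have : kv A w y a = 0 := ha.elim (fun e => e ▸ kv_self) kv_closed
  simp [XM, XiM, Iy, this]

theorem XM_apply_zero' (τ : ℂ) (a : ι) {b : ι} (hb : b = y ∨ gam w b = 0) : XM A w y τ a b = 0 := by
  have : kv A w y b = 0 := hb.elim (fun e => e ▸ kv_self) kv_closed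
  simp [XM, XiM, Iy, this]

theorem XM_add (τ τ' : ℂ) : XM A w y (τ + τ') = XM A w y τ + XM A w y τ' := by
  ext a b; simp [XM, add_mul]

theorem XM_smul (r : ℝ) (τ : ℂ) : XM A w y (r * τ) = r • XM A w y τ := by
  ext a b; simp [XM, mul_assoc]

/-! ### closing -/

theorem Hm_mul_close (h : Adm A w) {v : ℝ} (hne : 1 + ((v : ℂ) - w y) * Gm A w y y ≠ 0) :
    Hm A (Function.update w y v) *
      (Gm A w - tau A w y v • vecMulVec (fun a => Gm A w a y) fun a => Gm A w a y) = 1 := by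
  have h1 : Hm A (Function.update w y v) = Hm A w + diagonal (Pi.single y ((v : ℂ) - w y)) := by
    rw [Hm, Hm, add_assoc, diagonal_add]
    congr 2; funext a
    by_cases ha : a = y
    · subst ha; simp
    · simp [ha]
  have h2 : tau A w y v * (1 + ((v : ℂ) - w y) * Gm A w y y) = v - w y := by
    rw [tau, div_mul_cancel₀ _ hne]
  have h3 := mul_Gm h
  ext a b
  have h4 := congrFun (congrFun h3 a) b
  have h5 := congrFun (congrFun h3 a) y
  rw [h1, Matrix.add_mul, Matrix.add_apply, diagonal_mul, Matrix.mul_apply]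
  rw [Matrix.mul_apply] at h4 h5
  simp only [Matrix.sub_apply, Matrix.smul_apply, vecMulVec_apply, smul_eq_mul, mul_sub, sum_sub_distrib, h4]
  have h6 : ∑ c, Hm A w a c * (tau A w y v * (Gm A w c y * Gm A w b y)) =
      tau A w y v * Gm A w b y * (1 : Matrix ι ι ℂ) a y := by
    rw [← h5, mul_sum]; exact sum_congr rfl fun c _ => by ring
  rw [h6]
  by_cases ha : a = y
  · subst ha
    rw [Pi.single_eq_same, one_apply_eq, Gm_comm h a b]
    linear_combination (-Gm A w b a) * h2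
  · simp [ha]

theorem adm_close (h : Adm A w) {v : ℝ} (hne : 1 + ((v : ℂ) - w y) * Gm A w y y ≠ 0) :
    Adm A (Function.update w y v) where
  symm := h.symm
  herm := h.herm
  diss x := by
    by_cases hx : x = y
    · subst hx; simp [gam]
    · simpa [gam, hx] using h.diss x
  inv := isUnit_det_of_right_inverse (Hm_mul_close h hne)

theorem Gm_close (h : Adm A w) {v : ℝ} (hne : 1 + ((v : ℂ) - w y) * Gm A w y y ≠ 0) (a b : ι) :
    Gm A (Function.update w y v) a b = Gm A w a b - tau A w y v * (Gm A w a y * Gm A w b y) := by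
  rw [Gm, inv_eq_right_inv (Hm_mul_close h hne)]; rfl

theorem gam_close_self (v : ℝ) : gam (Function.update w y v) y = 0 := by simp [gam]
theorem gam_close_ne (v : ℝ) {a : ι} (ha : a ≠ y) : gam (Function.update w y v) a = gam w a := by
  simp [gam, ha]

theorem Km_close (h : Adm A w) {v : ℝ} (hne : 1 + ((v : ℂ) - w y) * Gm A w y y ≠ 0) (a b : ι) :
    Km A (Function.update w y v) a b =
      (if a = y ∨ b = y then 0 else Km A w a b) - tau A w y v * (kv A w y a * kv A w y b) := by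
  by_cases ha : a = y
  · subst ha; simp [Km, gam_close_self, kv_self]
  by_cases hb : b = y
  · subst hb; simp [Km, gam_close_self, kv_self]
  simp only [Km, gam_close_ne v ha, gam_close_ne v hb, Gm_close h hne, ha, hb, kv, or_self, if_false]
  ring

/-- `|τ|² ι - γ` is linear in `τ` -/
theorem tau_sq (h : Adm A w) {v : ℝ} (hne : 1 + ((v : ℂ) - w y) * Gm A w y y ≠ 0) :
    ‖tau A w y v‖ ^ 2 * iot A w y - gam w y =
      (tau A w y v * (Complex.I * (1 + 2 * Complex.I * Km A w y y))).re := by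
  have h2 : tau A w y v * (1 + ((v : ℂ) - w y) * Gm A w y y) = v - w y := by
    rw [tau, div_mul_cancel₀ _ hne]
  set t := tau A w y v
  set G := Gm A w y y with hG
  have h3 : t * conj (1 - t * G) = ((v : ℂ) - w y) * (‖1 - t * G‖ ^ 2 : ℝ) := by
    rw [Complex.ofReal_pow, ← Complex.mul_conj']
    linear_combination conj (1 - t * G) * h2
  have h4 := congrArg Complex.im h3
  have h5 : Km A w y y = gam w y * G := by
    rw [Km, mul_right_comm, sqrt_mul_sqrt h.diss]
  rw [Complex.im_mul_ofReal] at h4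
  rw [iot_eq h, h5, ← hG]
  simp only [Complex.sq_norm, Complex.normSq_apply] at h4 ⊢
  simp [gam] at h4 ⊢
  linear_combination h4

theorem En_update (h : Adm A w) (f : ι → ℝ) (c : ℝ) : En (Km A w) (Function.update f y c) =
    (1 / 2) * ∑ a, ∑ b, ‖if a = y ∨ b = y then 0 else Km A w a b‖ ^ 2 * (f a - f b) ^ 2 +
      gam w y * star2 A w y f c := by
  set F : ι → ι → ℝ := fun a b => if b = y then gam w y * (Iy A w y a * (f a - c) ^ 2) else 0 with hF
  have h1 : ∀ a b, ‖Km A w a b‖ ^ 2 * (Function.update f y c a - Function.update f y c b) ^ 2 =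
      ‖if a = y ∨ b = y then 0 else Km A w a b‖ ^ 2 * (f a - f b) ^ 2 + F a b + F b a := by
    intro a b
    by_cases ha : a = y <;> by_cases hb : b = y
    · simp [ha, hb, hF, Iy_self]
    · subst ha; rw [Km_comm h, Km_col_sq h.diss hb]; simp [hb, hF]; ring
    · subst hb; rw [Km_col_sq h.diss ha]; simp [ha, hF]; ring
    · simp [ha, hb, hF]
  have h2 : ∑ a, ∑ b, F a b = gam w y * star2 A w y f c := by simp [hF, star2, mul_sum]
  have h3 : ∑ a, ∑ b, F b a = gam w y * star2 A w y f c := by rw [sum_comm, h2]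
  simp only [En, h1, sum_add_distrib, h2, h3]; ring

/-- random star-mesh: the energy after closing is the Schur complement plus `X_y(τ)` -/
theorem En_close (h : Adm A w) {v : ℝ} (hne : 1 + ((v : ℂ) - w y) * Gm A w y y ≠ 0) (f : ι → ℝ) :
    En (Km A (Function.update w y v)) f =
      En (Km A w) (Function.update f y (vm A w y f)) + f ⬝ᵥ XM A w y (tau A w y v) *ᵥ f := by
  set t := tau A w y v with ht
  set k := kv A w y with hk
  set g : ι → ℝ := fun a => f a - vm A w y f with hg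
  set S := 1 + 2 * Complex.I * Km A w y y with hS
  have hg0 : ∑ a, Iy A w y a * g a = 0 := sum_Iy_sub f
  have e1 : ∀ a b, ‖Km A (Function.update w y v) a b‖ ^ 2 * (f a - f b) ^ 2 =
      ‖if a = y ∨ b = y then 0 else Km A w a b‖ ^ 2 * (f a - f b) ^ 2 +
      (t * (-Complex.I * (k a * Sb A w a b * k b * ((g a - g b) ^ 2 : ℝ)))).re +
      ‖t‖ ^ 2 * (Iy A w y a * Iy A w y b * (g a - g b) ^ 2) := by
    intro a b
    have e2 : g a - g b = f a - f b := by simp [hg]
    rw [Km_close h hne, e2, ← ht, ← hk]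
    by_cases hab : a = b
    · subst hab; simp
    by_cases hy : a = y ∨ b = y
    · have : k a * k b = 0 := by rcases hy with e | e <;> simp [hk, e, kv_self]
      have h' : Iy A w y a * Iy A w y b = 0 := by rcases hy with e | e <;> simp [e, Iy_self]
      rw [mul_right_comm (k a), this, h']; simp [hy]
    · have e3 : ‖t‖ ^ 2 * (Iy A w y a * Iy A w y b) = ‖t * (k a * k b)‖ ^ 2 := by
        simp [Iy, hk, mul_pow]
      rw [← mul_assoc (‖t‖ ^ 2), e3, if_neg hy, Sb, if_neg hab, mul_right_comm (k a)]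
      generalize k a * k b = p
      generalize (f a - f b) ^ 2 = r
      simp only [Complex.sq_norm, Complex.normSq_apply]
      simp; ring
  have e4 : ∑ a, ∑ b, Iy A w y a * Iy A w y b * (g a - g b) ^ 2 =
      2 * (iot A w y * star2 A w y f (vm A w y f)) := by
    have : ∀ a b, Iy A w y a * Iy A w y b * (g a - g b) ^ 2 = Iy A w y a * g a ^ 2 * Iy A w y b +
        Iy A w y a * (Iy A w y b * g b ^ 2) - 2 * (Iy A w y a * g a) * (Iy A w y b * g b) :=
      fun a b => by ring
    simp only [this, sum_add_distrib, sum_sub_distrib, ← mul_sum, ← sum_mul, hg0]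
    simp only [star2, iot, hg]; ring
  have e5 : ∑ a, ∑ b, k a * Sb A w a b * k b * ((g a - g b) ^ 2 : ℝ) =
      2 * (S * star2 A w y f (vm A w y f)) - 2 * ∑ b, k b * zv A w y f b * g b := by
    have h1 : ∀ a, ∑ b, k a * Sb A w a b * k b = S * Iy A w y a := fun a => by
      rw [← Sb_kv h a, mulVec, dotProduct, mul_sum]
      exact sum_congr rfl fun b _ => by ring
    have h2 : ∑ a, ∑ b, k a * Sb A w a b * k b * (g a ^ 2 : ℝ) =
        S * star2 A w y f (vm A w y f) := by
      simp only [← sum_mul, h1, star2]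
      push_cast
      rw [mul_sum]
      exact sum_congr rfl fun a _ => by simp only [hg]; push_cast; ring
    have h3 : ∑ a, ∑ b, k a * Sb A w a b * k b * (g b ^ 2 : ℝ) =
        S * star2 A w y f (vm A w y f) := by
      rw [← h2, sum_comm]
      exact sum_congr rfl fun a _ => sum_congr rfl fun b _ => by rw [Sb_comm h]; ring
    have h4 : ∑ a, ∑ b, k a * Sb A w a b * k b * (g a * g b : ℝ) =
        ∑ b, k b * zv A w y f b * g b := by
      refine sum_congr rfl fun a _ => ?_
      rw [zv, mulVec, dotProduct, mul_sum, sum_mul]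
      exact sum_congr rfl fun b _ => by simp only [hg, hk]; push_cast; ring
    rw [← h4, two_mul (S * _)]
    nth_rewrite 1 [← h2]
    rw [← h3]
    simp only [mul_sum, ← sum_add_distrib, ← sum_sub_distrib]
    exact sum_congr rfl fun a _ => sum_congr rfl fun b _ => by push_cast; ring
  have e6 : f ⬝ᵥ XM A w y t *ᵥ f = (t * (Complex.I * ∑ b, k b * zv A w y f b * g b)).re := by
    rw [← XM_shift h t f f 0 (vm A w y f)]
    simp only [sub_zero]
    rw [XM_form h, mul_sum, mul_sum, Complex.re_sum]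
    refine sum_congr rfl fun b _ => ?_
    rw [← Complex.re_mul_ofReal]; congr 1; simp only [hg, hk]; ring
  have e7 := tau_sq h hne
  rw [← ht, ← hS] at e7
  rw [En_update h, e6, En]
  simp only [e1, sum_add_distrib, ← mul_sum, ← Complex.re_sum]
  rw [e4, e5]
  generalize ∑ b, k b * zv A w y f b * g b = P
  generalize star2 A w y f (vm A w y f) = W
  simp at e7 ⊢
  linear_combination W * e7

end Crest.Agent.N334.AC.M6
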